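import Mathlib

/-!
P338-D, module CRT (2): mixed radix digits, local and global residues, plain functions on `ℕ`.

`q k` radices, `iv k i` = inverse of `q k` modulo `q i`.  Digit `0` is the least significant one.
Groups = blocks of `s` consecutive digits.
-/

namespace Vale.Agent.P338.R3.H955

open Finset

set_option linter.unusedSectionVars false

/-- mixed radix value of the digits `s, ..., s+n-1` -/
def mv (q a : ℕ → ℕ) : ℕ → ℕ → ℕ
  | _, 0 => 0
  | s, n + 1 => a s + q s * mv q a (s + 1) n

/-- product of the radices `s, ..., s+n-1` -/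
def up (q : ℕ → ℕ) : ℕ → ℕ → ℕ
  | _, 0 => 1
  | s, n + 1 => q s * up q (s + 1) n

/-- `mv` as a fold over a list -/
lemma mv_eq_foldr (q a : ℕ → ℕ) (s n : ℕ) :
    mv q a s n = (List.range' s n).foldr (fun k v => a k + q k * v) 0 := by
  induction n generalizing s with
  | zero => rfl
  | succ n ih => rw [mv, ih, List.range'_succ, List.foldr_cons]

lemma up_eq_foldr (q : ℕ → ℕ) (s n : ℕ) :
    up q s n = (List.range' s n).foldr (fun k v => q k * v) 1 := by
  induction n generalizing s with
  | zero => rfl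
  | succ n ih => rw [up, ih, List.range'_succ, List.foldr_cons]

lemma mv_add (q a : ℕ → ℕ) (s m n : ℕ) :
    mv q a s (m + n) = mv q a s m + up q s m * mv q a (s + m) n := by
  induction m generalizing s with
  | zero => simp [mv, up]
  | succ m ih =>
    rw [show m + 1 + n = (m + n) + 1 by ring, mv, ih, mv, up, show s + (m + 1) = s + 1 + m by ring]
    ring

lemma up_add (q : ℕ → ℕ) (s m n : ℕ) : up q s (m + n) = up q s m * up q (s + m) n := by
  induction m generalizing s with
  | zero => simp [up]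
  | succ m ih =>
    rw [show m + 1 + n = (m + n) + 1 by ring, up, ih, up, show s + (m + 1) = s + 1 + m by ring]
    ring

lemma mv_congr {q a b : ℕ → ℕ} {s n : ℕ} (h : ∀ k, s ≤ k → k < s + n → a k = b k) :
    mv q a s n = mv q b s n := by
  induction n generalizing s with
  | zero => rfl
  | succ n ih =>
    rw [mv, mv, h s le_rfl (by omega), ih fun k h1 h2 => h k (by omega) (by omega)]

lemma mv_lt {q a : ℕ → ℕ} {s n : ℕ} (h : ∀ k, s ≤ k → k < s + n → a k < q k) :
    mv q a s n < up q s n := by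
  induction n generalizing s with
  | zero => simp [mv, up]
  | succ n ih =>
    rw [mv, up]
    have h1 := h s le_rfl (by omega)
    have h2 := ih (s := s + 1) fun k h1 h2 => h k (by omega) (by omega)
    calc a s + q s * mv q a (s + 1) n < q s + q s * mv q a (s + 1) n := by omega
      _ = q s * (mv q a (s + 1) n + 1) := by ring
      _ ≤ q s * up q (s + 1) n := Nat.mul_le_mul_left _ h2

/-- the digits of `j` -/
def dig (q : ℕ → ℕ) (j k : ℕ) : ℕ := j / up q 0 k % q k

lemma up_pos {q : ℕ → ℕ} {s n : ℕ} (h : ∀ k, s ≤ k → k < s + n → 0 < q k) : 0 < up q s n := by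
  induction n generalizing s with
  | zero => simp [up]
  | succ n ih =>
    rw [up]
    exact Nat.mul_pos (h s le_rfl (by omega)) (ih fun k h1 h2 => h k (by omega) (by omega))

lemma up_succ (q : ℕ → ℕ) (s n : ℕ) : up q s (n + 1) = up q s n * q (s + n) := by
  rw [up_add, up, up, mul_one]

lemma mv_dig (q : ℕ → ℕ) (j n : ℕ) : mv q (dig q j) 0 n = j % up q 0 n := by
  induction n with
  | zero => simp [mv, up, Nat.mod_one]
  | succ n ih =>
    rw [mv_add, ih, up_succ, zero_add, mv, mv, mul_zero, add_zero, dig, Nat.mod_mul]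

/-- uniqueness of digits -/
lemma dig_mv {q a : ℕ → ℕ} {n : ℕ} (h : ∀ k, k < n → a k < q k) {k : ℕ} (hk : k < n) :
    dig q (mv q a 0 n) k = a k := by
  have hpos : ∀ m, m ≤ n → 0 < up q 0 m := fun m hm =>
    up_pos fun k _ h2 => lt_of_le_of_lt (Nat.zero_le _) (h k (by omega))
  obtain ⟨r, rfl⟩ : ∃ r, n = k + (1 + r) := ⟨n - k - 1, by omega⟩
  have h1 : mv q a 0 (k + (1 + r)) = mv q a 0 k + up q 0 k * (a k + q k * mv q a (k + 1) r) := by
    rw [mv_add, zero_add, add_comm 1 r, mv]
  have h2 : mv q a 0 k < up q 0 k := mv_lt fun k' _ h' => h k' (by omega)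
  rw [dig, h1, Nat.add_mul_div_left _ _ (hpos k (by omega)), Nat.div_eq_of_lt h2, zero_add,
    Nat.add_mul_mod_self_left, Nat.mod_eq_of_lt (h k (by omega))]

/-! ### the two level residue coordinates -/

/-- product of the inverses modulo `q i` of the radices `s, ..., s+n-1` -/
def ivp (iv : ℕ → ℕ → ℕ) (i : ℕ) (s n : ℕ) : ℕ := up (fun k => iv k i) s n

/-- the local shift of the digit `i`: a function of the lower digits of its group -/
def wloc (q : ℕ → ℕ) (iv : ℕ → ℕ → ℕ) (s i : ℕ) (a : ℕ → ℕ) : ℕ :=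
  ivp iv i (s * (i / s)) (i % s) * mv q a (s * (i / s)) (i % s) % q i

/-- the global shift of the digit `i`, a function of the digits below its group -/
def wglob (q : ℕ → ℕ) (iv : ℕ → ℕ → ℕ) (s i : ℕ) (a : ℕ → ℕ) : ℕ :=
  ivp iv i 0 i * mv q a 0 (s * (i / s)) % q i

/-- the residue coordinate `i` of `j` -/
def theta (q : ℕ → ℕ) (iv : ℕ → ℕ → ℕ) (i j : ℕ) : ℕ := ivp iv i 0 i * j % q i

/-- decoding of local residues into digits -/
def decL (q : ℕ → ℕ) (iv : ℕ → ℕ → ℕ) (s : ℕ) (y : ℕ → ℕ) : ℕ → List ℕ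
  | 0 => []
  | n + 1 => decL q iv s y n ++
      [(y n + (q n - wloc q iv s n (fun k => (decL q iv s y n).getD k 0))) % q n]

lemma length_decL (q : ℕ → ℕ) (iv : ℕ → ℕ → ℕ) (s : ℕ) (y : ℕ → ℕ) (n : ℕ) :
    (decL q iv s y n).length = n := by
  induction n with
  | zero => rfl
  | succ n ih => rw [decL, List.length_append, ih]; rfl

lemma wloc_congr {q : ℕ → ℕ} {iv : ℕ → ℕ → ℕ} {s i : ℕ} {a b : ℕ → ℕ}
    (h : ∀ k, s * (i / s) ≤ k → k < i → a k = b k) : wloc q iv s i a = wloc q iv s i b := by
  unfold wloc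
  rw [mv_congr fun k h1 h2 => h k h1 ?_]
  have := Nat.div_add_mod i s
  omega

lemma wglob_congr {q : ℕ → ℕ} {iv : ℕ → ℕ → ℕ} {s i : ℕ} {a b : ℕ → ℕ}
    (h : ∀ k, k < s * (i / s) → a k = b k) : wglob q iv s i a = wglob q iv s i b := by
  unfold wglob
  rw [mv_congr fun k _ h2 => h k (by omega)]

lemma wloc_lt {q : ℕ → ℕ} {iv : ℕ → ℕ → ℕ} {s i : ℕ} (a : ℕ → ℕ) (hq : 0 < q i) :
    wloc q iv s i a < q i := Nat.mod_lt _ hq

lemma wglob_lt {q : ℕ → ℕ} {iv : ℕ → ℕ → ℕ} {s i : ℕ} (a : ℕ → ℕ) (hq : 0 < q i) :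
    wglob q iv s i a < q i := Nat.mod_lt _ hq

/-- decoding the local residues gives the digits back -/
theorem decL_eq {q : ℕ → ℕ} {iv : ℕ → ℕ → ℕ} {s : ℕ} {a y : ℕ → ℕ} {n : ℕ}
    (ha : ∀ k, k < n → a k < q k) (hy : ∀ k, k < n → y k = (a k + wloc q iv s k a) % q k) :
    decL q iv s y n = (List.range n).map a := by
  induction n with
  | zero => rfl
  | succ n ih =>
    rw [decL, ih (fun k hk => ha k (by omega)) (fun k hk => hy k (by omega)), List.range_succ,
      List.map_append, List.map_singleton]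
    congr 2
    have h1 : wloc q iv s n (fun k => ((List.range n).map a).getD k 0) = wloc q iv s n a :=
      wloc_congr fun k _ h2 => by simp [List.getD_eq_getElem?_getD, h2]
    have hq : 0 < q n := lt_of_le_of_lt (Nat.zero_le _) (ha n (by omega))
    have h2 := wloc_lt (iv := iv) (s := s) a hq
    rw [h1, hy n (by omega)]
    have h3 := ha n (by omega)
    have h4 : (a n + wloc q iv s n a) % q n + (q n - wloc q iv s n a) ≡ a n [MOD q n] := by
      calc (a n + wloc q iv s n a) % q n + (q n - wloc q iv s n a)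
          ≡ (a n + wloc q iv s n a) + (q n - wloc q iv s n a) [MOD q n] :=
            (Nat.mod_modEq _ _).add_right _
        _ = a n + q n := by omega
        _ ≡ a n [MOD q n] := by simp
    exact Nat.ModEq.trans h4 (Nat.ModEq.refl _) |>.symm ▸ Nat.mod_eq_of_lt h3

/-! ### residues in `ZMod (q i)` -/

lemma up_mul_ivp {q : ℕ → ℕ} {iv : ℕ → ℕ → ℕ} {i s n : ℕ}
    (h : ∀ k, s ≤ k → k < s + n → (q k : ZMod (q i)) * (iv k i : ZMod (q i)) = 1) :
    (up q s n : ZMod (q i)) * (ivp iv i s n : ZMod (q i)) = 1 := by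
  induction n generalizing s with
  | zero => simp [up, ivp]
  | succ n ih =>
    have h1 := h s le_rfl (by omega)
    have h2 := ih (s := s + 1) fun k h1 h2 => h k (by omega) (by omega)
    unfold ivp at h2 ⊢
    rw [up, up]
    push_cast
    calc (q s : ZMod (q i)) * (up q (s + 1) n) * (iv s i * up (fun k => iv k i) (s + 1) n)
        = (q s * iv s i) * (up q (s + 1) n * up (fun k => iv k i) (s + 1) n) := by ring
      _ = 1 := by rw [h1, h2, mul_one]

lemma cast_mod_self (m n : ℕ) : ((m % n : ℕ) : ZMod n) = (m : ZMod n) := by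
  rw [ZMod.natCast_mod]

/-- the residue coordinates in terms of the digits -/
theorem theta_cast {q : ℕ → ℕ} {iv : ℕ → ℕ → ℕ} {D i : ℕ} (s : ℕ) (hi : i < D)
    (hiv : ∀ k, k < i → (q k : ZMod (q i)) * (iv k i : ZMod (q i)) = 1) (a : ℕ → ℕ) :
    (theta q iv i (mv q a 0 D) : ZMod (q i)) =
      (a i : ZMod (q i)) + (wloc q iv s i a : ZMod (q i)) + (wglob q iv s i a : ZMod (q i)) := by
  obtain ⟨r, rfl⟩ : ∃ r, D = i + (r + 1) := ⟨D - i - 1, by omega⟩
  have hdm := Nat.div_add_mod i s
  set s0 := s * (i / s) with hs0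
  set p := i % s with hp
  have h1 : mv q a 0 (i + (r + 1)) =
      mv q a 0 s0 + up q 0 s0 * (mv q a s0 p + up q s0 p * (a i + q i * mv q a (i + 1) r)) := by
    have h3 : mv q a 0 i = mv q a 0 s0 + up q 0 s0 * mv q a s0 p := by
      have := mv_add q a 0 s0 p
      rwa [hdm, zero_add] at this
    have h4 : up q 0 i = up q 0 s0 * up q s0 p := by
      have := up_add q 0 s0 p
      rwa [hdm, zero_add] at this
    rw [mv_add, zero_add, mv, h3, h4]
    ring
  have h2 : ivp iv i 0 i = ivp iv i 0 s0 * ivp iv i s0 p := by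
    have := up_add (fun k => iv k i) 0 s0 p
    rw [hdm, zero_add] at this
    exact this
  have h5 : (up q 0 s0 : ZMod (q i)) * (ivp iv i 0 s0 : ZMod (q i)) = 1 :=
    up_mul_ivp fun k _ h => hiv k (by omega)
  have h6 : (up q s0 p : ZMod (q i)) * (ivp iv i s0 p : ZMod (q i)) = 1 :=
    up_mul_ivp fun k _ h => hiv k (by omega)
  unfold theta wloc wglob
  rw [cast_mod_self, cast_mod_self, cast_mod_self, h1, ← hs0, ← hp, h2]
  push_cast
  rw [CharP.cast_eq_zero (ZMod (q i)) (q i)]
  calc (ivp iv i 0 s0 : ZMod (q i)) * (ivp iv i s0 p) *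
        (mv q a 0 s0 + up q 0 s0 * (mv q a s0 p + up q s0 p * (a i + 0 * mv q a (i + 1) r)))
      = (ivp iv i 0 s0 * ivp iv i s0 p) * mv q a 0 s0 +
        (up q 0 s0 * ivp iv i 0 s0) * (ivp iv i s0 p * mv q a s0 p) +
        (up q 0 s0 * ivp iv i 0 s0) * (up q s0 p * ivp iv i s0 p) * a i := by ring
    _ = _ := by rw [h5, h6]; ring

/-! ### the index maps on tuples of residues -/

section tuples

variable {q : ℕ → ℕ} [∀ k, NeZero (q k)] {D : ℕ}

/-- tuples of residues -/
abbrev Tup (q : ℕ → ℕ) (D : ℕ) : Type := ∀ i : Fin D, ZMod (q i)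

/-- a tuple as a function on `ℕ` -/
def ext (x : Tup q D) : ℕ → ℕ := fun k => if h : k < D then (x ⟨k, h⟩).val else 0

/-- local shift -/
def wA (iv : ℕ → ℕ → ℕ) (s : ℕ) (i : Fin D) (x : Tup q D) : ZMod (q i) :=
  (wloc q iv s i (ext x) : ℕ)

/-- global shift -/
def wB (iv : ℕ → ℕ → ℕ) (s : ℕ) (i : Fin D) (x : Tup q D) : ZMod (q i) :=
  (wglob q iv s i (fun k => (decL q iv s (ext x) (s * (i / s))).getD k 0) : ℕ)

lemma ext_congr {x y : Tup q D} {k : ℕ} (h : ∀ hk : k < D, x ⟨k, hk⟩ = y ⟨k, hk⟩) :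
    ext x k = ext y k := by
  unfold ext
  split_ifs with hk
  · rw [h hk]
  · rfl

lemma wA_congr {iv : ℕ → ℕ → ℕ} {s : ℕ} {i : Fin D} {x y : Tup q D}
    (h : ∀ k : Fin D, s * (i / s) ≤ k → (k : ℕ) < i → x k = y k) :
    wA iv s i x = wA iv s i y := by
  unfold wA
  rw [wloc_congr fun k h1 h2 => ext_congr fun hk => h ⟨k, hk⟩ h1 h2]

lemma decL_congr {iv : ℕ → ℕ → ℕ} {s : ℕ} {y z : ℕ → ℕ} {n : ℕ}
    (h : ∀ k, k < n → y k = z k) : decL q iv s y n = decL q iv s z n := by
  induction n with
  | zero => rfl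
  | succ n ih => rw [decL, decL, ih fun k hk => h k (by omega), h n (by omega)]

lemma wB_congr {iv : ℕ → ℕ → ℕ} {s : ℕ} {i : Fin D} {x y : Tup q D}
    (h : ∀ k : Fin D, (k : ℕ) < s * (i / s) → x k = y k) :
    wB iv s i x = wB iv s i y := by
  unfold wB
  rw [decL_congr fun k hk => ext_congr fun hk' => h ⟨k, hk'⟩ hk]

/-- undo a shift in the digits of `l` -/
def undo (l : List (Fin D)) (w : ∀ i : Fin D, Tup q D → ZMod (q i)) (x : Tup q D) : Tup q D :=
  fun i => if i ∈ l then x i - w i x else x i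

/-- digits in position `p` of their group -/
def posL (s D p : ℕ) : List (Fin D) := (List.finRange D).filter fun i => (i : ℕ) % s = p

/-- digits of group `g` -/
def grpL (s D g : ℕ) : List (Fin D) := (List.finRange D).filter fun i => (i : ℕ) / s = g

lemma mem_posL {s p : ℕ} {i : Fin D} : i ∈ posL s D p ↔ (i : ℕ) % s = p := by
  simp [posL]

lemma mem_grpL {s g : ℕ} {i : Fin D} : i ∈ grpL s D g ↔ (i : ℕ) / s = g := by
  simp [grpL]

lemma nodup_posL (s p : ℕ) : (posL s D p).Nodup := (List.nodup_finRange D).filter _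

lemma nodup_grpL (s g : ℕ) : (grpL s D g).Nodup := (List.nodup_finRange D).filter _

/-- undo the positions `1, ..., n` (ascending), innermost first -/
def undoA (iv : ℕ → ℕ → ℕ) (s : ℕ) : ℕ → Tup q D → Tup q D
  | 0, x => x
  | n + 1, x => undo (posL s D (n + 1)) (wA iv s) (undoA iv s n x)

/-- undo the groups `1, ..., n` (ascending) -/
def undoB (iv : ℕ → ℕ → ℕ) (s : ℕ) : ℕ → Tup q D → Tup q D
  | 0, x => x
  | n + 1, x => undo (grpL s D (n + 1)) (wB iv s) (undoB iv s n x)

/-- local residues -/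
def encA (iv : ℕ → ℕ → ℕ) (s : ℕ) (x : Tup q D) : Tup q D := fun i => x i + wA iv s i x

/-- global residues from local ones -/
def encB (iv : ℕ → ℕ → ℕ) (s : ℕ) (x : Tup q D) : Tup q D := fun i => x i + wB iv s i x

lemma undoA_encA (iv : ℕ → ℕ → ℕ) {s : ℕ} (hs : 0 < s) (a : Tup q D) (n : ℕ) :
    undoA iv s n (encA iv s a) =
      fun i : Fin D => if (i : ℕ) % s < n + 1 then a i else encA iv s a i := by
  induction n with
  | zero =>
    funext i
    rw [undoA]
    split_ifs with h
    · have h0 : (i : ℕ) % s = 0 := by omega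
      unfold encA wA wloc
      rw [h0]
      simp [mv]
    · rfl
  | succ n ih =>
    funext i
    rw [undoA, ih]
    unfold undo
    simp only [mem_posL]
    by_cases h1 : (i : ℕ) % s = n + 1
    · rw [if_pos h1, if_neg (by omega), if_pos (by omega)]
      have h2 : wA iv s i (fun k : Fin D => if (k : ℕ) % s < n + 1 then a k else encA iv s a k) =
          wA iv s i a := by
        apply wA_congr
        intro k hk1 hk2
        have : (k : ℕ) % s < n + 1 := by
          have h3 := Nat.div_add_mod (i : ℕ) s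
          have h4 : (k : ℕ) / s = (i : ℕ) / s := by
            apply le_antisymm (Nat.div_le_div_right hk2.le)
            rw [Nat.le_div_iff_mul_le hs, mul_comm]
            exact hk1
          have h5 := Nat.div_add_mod (k : ℕ) s
          rw [h4] at h5
          omega
        rw [if_pos this]
      rw [h2]
      simp [encA]
    · rw [if_neg h1]
      by_cases h2 : (i : ℕ) % s < n + 1
      · rw [if_pos h2, if_pos (by omega)]
      · rw [if_neg h2, if_neg (by omega)]

lemma undoB_encB (iv : ℕ → ℕ → ℕ) {s : ℕ} (hs : 0 < s) (y : Tup q D) (n : ℕ) :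
    undoB iv s n (encB iv s y) =
      fun i : Fin D => if (i : ℕ) / s < n + 1 then y i else encB iv s y i := by
  induction n with
  | zero =>
    funext i
    rw [undoB]
    split_ifs with h
    · have h0 : (i : ℕ) / s = 0 := Nat.lt_one_iff.1 h
      unfold encB wB wglob
      rw [h0]
      simp [mv]
    · rfl
  | succ n ih =>
    funext i
    rw [undoB, ih]
    unfold undo
    simp only [mem_grpL]
    by_cases h1 : (i : ℕ) / s = n + 1
    · rw [if_pos h1, if_neg (by omega), if_pos (by omega)]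
      have h2 : wB iv s i (fun k : Fin D => if (k : ℕ) / s < n + 1 then y k else encB iv s y k) =
          wB iv s i y := by
        apply wB_congr
        intro k hk1
        have : (k : ℕ) / s < n + 1 := by
          rw [h1] at hk1
          exact (Nat.div_lt_iff_lt_mul hs).2 (by rwa [mul_comm])
        rw [if_pos this]
      rw [h2]
      simp [encB]
    · rw [if_neg h1]
      by_cases h2 : (i : ℕ) / s < n + 1
      · rw [if_pos h2, if_pos (by omega)]
      · rw [if_neg h2, if_neg (by omega)]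

/-- the tuple of digits of `j` -/
def digT (q : ℕ → ℕ) (D j : ℕ) : Tup q D := fun i => (dig q j i : ℕ)

/-- the tuple of residue coordinates of `j` -/
def thetaT (q : ℕ → ℕ) (iv : ℕ → ℕ → ℕ) (D j : ℕ) : Tup q D := fun i => (theta q iv i j : ℕ)

lemma dig_lt {j k : ℕ} : dig q j k < q k := Nat.mod_lt _ (Nat.pos_of_ne_zero (NeZero.ne _))

lemma ext_digT {j k : ℕ} (hk : k < D) : ext (digT q D j) k = dig q j k := by
  unfold ext digT
  rw [dif_pos hk, ZMod.val_cast_of_lt dig_lt]

/-- MAIN INDEX THEOREM: undoing all shifts maps the residue coordinates to the digits -/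
theorem undo_theta {iv : ℕ → ℕ → ℕ} {s t : ℕ} (hs : 0 < s) (hD : D ≤ s * (t + 1))
    (hiv : ∀ i k, i < D → k < i → (q k : ZMod (q i)) * (iv k i : ZMod (q i)) = 1)
    {j : ℕ} (hj : j < up q 0 D) :
    undoA iv s (s - 1) (undoB iv s t (thetaT q iv D j)) = digT q D j := by
  have h1 : thetaT q iv D j = encB iv s (encA iv s (digT q D j)) := by
    funext i
    have h2 : ∀ k, k < D → ext (digT q D j) k = dig q j k := fun k hk => ext_digT hk
    have h3 : wA iv s i (digT q D j) = (wloc q iv s i (dig q j) : ZMod (q i)) := by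
      unfold wA
      rw [wloc_congr fun k _ hk => h2 k (by omega)]
    have h4 : wB iv s i (encA iv s (digT q D j)) = (wglob q iv s i (dig q j) : ZMod (q i)) := by
      unfold wB
      have hle : s * ((i : ℕ) / s) ≤ i := Nat.mul_div_le _ _
      rw [decL_eq (a := dig q j) (fun k _ => dig_lt)]
      · rw [wglob_congr (b := dig q j) fun k hk => by
          simp [List.getD_eq_getElem?_getD, hk]]
      · intro k hk
        have hkD : k < D := by omega
        unfold ext encA
        rw [dif_pos hkD]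
        have h5 : wA iv s ⟨k, hkD⟩ (digT q D j) = (wloc q iv s k (dig q j) : ZMod (q k)) := by
          unfold wA
          rw [wloc_congr fun k' _ hk' => h2 k' (lt_trans hk' hkD)]
        rw [h5]
        unfold digT
        rw [← Nat.cast_add, ZMod.val_natCast]
    unfold encB
    rw [h4]
    unfold encA
    rw [h3]
    have h6 := theta_cast (q := q) (iv := iv) (D := D) (i := i) s i.2
      (fun k hk => hiv i k i.2 hk) (dig q j)
    rw [mv_dig, Nat.mod_eq_of_lt hj] at h6
    unfold thetaT digT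
    exact h6
  rw [h1, undoB_encB iv hs]
  have h7 : (fun i : Fin D => if (i : ℕ) / s < t + 1 then encA iv s (digT q D j) i
      else encB iv s (encA iv s (digT q D j)) i) = encA iv s (digT q D j) := by
    funext i
    rw [if_pos]
    rw [Nat.div_lt_iff_lt_mul hs, mul_comm]
    exact lt_of_lt_of_le i.2 hD
  rw [h7, undoA_encA iv hs]
  funext i
  rw [if_pos]
  have := Nat.mod_lt (i : ℕ) hs
  omega

end tuples

end Vale.Agent.P338.R3.H955
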