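import Vale.Agent.P338.R3.H955.Shear
import Vale.Agent.P338.R3.H955.Digits

/-!
P338-D, module CRT (3): instances of the lockstep index map (Fourier kernels and the two register
kernel `U`), and the composition of all shears.
-/

namespace Vale.Agent.P338.R3.H955

open Finset

set_option linter.unusedSectionVars false

section kernels

variable {R : Type*} [CommRing R] {n : ℕ} [NeZero n]

/-- orthogonality of an additive character -/
def Orth (ψ : AddChar (ZMod n) R) : Prop := ∀ b : ZMod n, b ≠ 0 → ∑ a : ZMod n, ψ (a * b) = 0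

lemma orth_sum {ψ : AddChar (ZMod n) R} (h : Orth ψ) (b : ZMod n) :
    ∑ a : ZMod n, ψ (a * b) = if b = 0 then (n : R) else 0 := by
  split_ifs with hb
  · subst hb
    simp [ZMod.card]
  · exact h b hb

/-- one digit: `F⁻¹ diag F` is a shift (unnormalised) -/
theorem four_kernel {ψ : AddChar (ZMod n) R} (h : Orth ψ) (v a b : ZMod n) :
    ∑ c : ZMod n, ψ (-(a * c)) * (ψ (c * v) * ψ (c * b)) = if b = a - v then (n : R) else 0 := by
  have h3 : ∀ c : ZMod n, ψ (-(a * c)) * (ψ (c * v) * ψ (c * b)) = ψ (c * (v + b - a)) := by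
    intro c
    rw [← AddChar.map_add_eq_mul, ← AddChar.map_add_eq_mul]
    congr 1; ring
  rw [Finset.sum_congr rfl fun c _ => h3 c, orth_sum h]
  have h4 : v + b - a = 0 ↔ b = a - v := by
    constructor
    · intro h5
      have : b = a - v + (v + b - a) := by ring
      rw [this, h5, add_zero]
    · intro h5; rw [h5]; ring
  simp only [h4]

/-- the two register kernel `(X, Y) ↦ (-g' F̄ Y, g F X)`; `false` = register `X` -/
def kU (ψ : AddChar (ZMod n) R) (g g' : R) : Bool × ZMod n → Bool × ZMod n → R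
  | (false, a), (true, b) => -(g' * ψ (-(a * b)))
  | (true, a), (false, b) => g * ψ (a * b)
  | _, _ => 0

/-- the phase of a shift for `U` -/
def phU (ψ : AddChar (ZMod n) R) (v : ZMod n) : Bool × ZMod n → R
  | (false, k) => ψ (-(k * v))
  | (true, k) => ψ (k * v)

/-- two registers: `U diag U = - shift` when `g g' n = 1` -/
theorem U_kernel {ψ : AddChar (ZMod n) R} (h : Orth ψ) {g g' : R} (hg : g * g' * n = 1)
    (v : ZMod n) (a b : Bool × ZMod n) :
    ∑ c, kU ψ g g' a c * (phU ψ v c * kU ψ g g' c b) =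
      if b = (a.1, a.2 - v) then (-1 : R) else 0 := by
  obtain ⟨ρ, a⟩ := a
  obtain ⟨ρ', b⟩ := b
  rw [Fintype.sum_prod_type, Fintype.sum_bool]
  have e1 : ∀ c : ZMod n, kU ψ g g' (false, a) (true, c) * (phU ψ v (true, c) *
      kU ψ g g' (true, c) (false, b)) = -(g * g') * (ψ (-(a * c)) * (ψ (c * v) * ψ (c * b))) := by
    intro c; simp only [kU, phU]; ring
  have e2 : ∀ c : ZMod n, kU ψ g g' (true, a) (false, c) * (phU ψ v (false, c) *
      kU ψ g g' (false, c) (true, b)) = -(g * g') * (ψ (a * c) * (ψ (-(c * v)) * ψ (-(c * b)))) := by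
    intro c; simp only [kU, phU]; ring
  have e3 : ∑ c : ZMod n, ψ (a * c) * (ψ (-(c * v)) * ψ (-(c * b))) =
      if b = a - v then (n : R) else 0 := by
    have h3 : ∀ c : ZMod n, ψ (a * c) * (ψ (-(c * v)) * ψ (-(c * b))) = ψ (c * (a - v - b)) := by
      intro c
      rw [← AddChar.map_add_eq_mul, ← AddChar.map_add_eq_mul]
      congr 1; ring
    rw [Finset.sum_congr rfl fun c _ => h3 c, orth_sum h]
    have h4 : a - v - b = 0 ↔ b = a - v := by
      rw [sub_eq_zero]; exact eq_comm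
    simp only [h4]
  cases ρ <;> cases ρ'
  · rw [Finset.sum_congr rfl fun c _ => e1 c, ← Finset.mul_sum, four_kernel h]
    have e4 : ∑ c : ZMod n, kU ψ g g' (false, a) (false, c) * (phU ψ v (false, c) *
      kU ψ g g' (false, c) (false, b)) = 0 := by simp [kU]
    rw [e4, add_zero]
    simp only [Prod.mk.injEq, true_and]
    split_ifs
    · rw [neg_mul, hg]
    · rw [mul_zero]
  · simp [kU]
  · simp [kU]
  · rw [Finset.sum_congr rfl fun c _ => e2 c, ← Finset.mul_sum, e3]
    have e4 : ∑ c : ZMod n, kU ψ g g' (true, a) (true, c) * (phU ψ v (true, c) *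
      kU ψ g g' (true, c) (true, b)) = 0 := by simp [kU]
    rw [e4, zero_add]
    simp only [Prod.mk.injEq, true_and]
    split_ifs
    · rw [neg_mul, hg]
    · rw [mul_zero]

/-- `U² = -1` -/
theorem U_sq {ψ : AddChar (ZMod n) R} (h : Orth ψ) {g g' : R} (hg : g * g' * n = 1)
    (a b : Bool × ZMod n) :
    ∑ c, kU ψ g g' a c * kU ψ g g' c b = if b = a then (-1 : R) else 0 := by
  have := U_kernel h hg 0 a b
  have h1 : ∀ c, phU ψ 0 c = 1 := by
    rintro ⟨ρ, c⟩
    cases ρ <;> simp [phU]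
  simpa [h1] using this

end kernels

/-! ### composition of all shears -/

section compose

variable {q : ℕ → ℕ} [∀ k, NeZero (q k)] {D : ℕ}
variable {A : Fin D → Type*} [∀ i, Fintype (A i)] [∀ i, DecidableEq (A i)]
variable {R M : Type*} [CommRing R] [AddCommGroup M] [Module R M]

/-- digits of a generalised index (`pr i` forgets the register bits) -/
def dgt (pr : ∀ i : Fin D, A i → ZMod (q i)) (x : ∀ i, A i) : Tup q D := fun i => pr i (x i)

/-- undo a shift in the digits of `l`, generalised index -/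
def undoX (pr : ∀ i : Fin D, A i → ZMod (q i)) (σ : ∀ i : Fin D, ZMod (q i) → A i → A i) (l : List (Fin D))
    (w : ∀ i : Fin D, Tup q D → ZMod (q i)) (x : ∀ i, A i) : ∀ i, A i :=
  fun i => if i ∈ l then σ i (w i (dgt pr x)) (x i) else x i

/-- one lockstep shear: kernels, phase, kernels -/
def stepW (pr : ∀ i : Fin D, A i → ZMod (q i)) (K K' : ∀ i, A i → A i → R)
    (φ : ∀ i : Fin D, ZMod (q i) → A i → R) (l : List (Fin D))
    (w : ∀ i : Fin D, Tup q D → ZMod (q i)) (f : (∀ i, A i) → M) : (∀ i, A i) → M :=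
  opL K' l (diag (phaseL l φ fun i x => w i (dgt pr x)) (opL K l f))

/-- `w` only depends on digits outside `l` -/
def Free (l : List (Fin D)) (w : ∀ i : Fin D, Tup q D → ZMod (q i)) : Prop :=
  ∀ i ∈ l, ∀ x y : Tup q D, (∀ j, j ∉ l → x j = y j) → w i x = w i y

theorem stepW_eq {pr : ∀ i : Fin D, A i → ZMod (q i)} {σ : ∀ i : Fin D, ZMod (q i) → A i → A i}
    {K K' : ∀ i, A i → A i → R} {φ : ∀ i : Fin D, ZMod (q i) → A i → R} {r : Fin D → R}
    (hK : ∀ i v a b, ∑ c, K' i a c * (φ i v c * K i c b) = if b = σ i v a then r i else 0)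
    {l : List (Fin D)} (hl : l.Nodup) {w : ∀ i : Fin D, Tup q D → ZMod (q i)} (hw : Free l w)
    (f : (∀ i, A i) → M) :
    stepW pr K K' φ l w f = ((l.map r).prod) • fun x => f (undoX pr σ l w x) := by
  unfold stepW
  rw [mapL_eq hl (σ := σ) (r := fun i _ => r i) (fun i hi j hj x a => ?_)
    (fun i _ v a b => hK i v a b) f]
  · funext x
    simp only [diag, scaleL, Pi.smul_apply, mapL]
    rfl
  · apply hw i hi
    intro k hk
    have : k ≠ j := fun h => hk (h ▸ hj)
    simp only [dgt, Function.update_of_ne this]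

lemma free_wA (iv : ℕ → ℕ → ℕ) {s : ℕ} (p : ℕ) :
    Free (posL s D p) (wA (q := q) (D := D) iv s) := by
  intro i hi x y h
  apply wA_congr
  intro k h1 h2
  apply h
  rw [mem_posL] at hi ⊢
  intro h3
  rcases Nat.eq_zero_or_pos s with hs | hs
  · subst hs
    simp only [Nat.mod_zero] at hi h3
    omega
  · have h4 := Nat.div_add_mod (i : ℕ) s
    have h5 : (k : ℕ) / s = (i : ℕ) / s := by
      apply le_antisymm (Nat.div_le_div_right h2.le)
      rw [Nat.le_div_iff_mul_le hs, mul_comm]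
      exact h1
    have h6 := Nat.div_add_mod (k : ℕ) s
    rw [h5] at h6
    omega

lemma free_wB (iv : ℕ → ℕ → ℕ) {s : ℕ} (hs : 0 < s) (g : ℕ) :
    Free (grpL s D g) (wB (q := q) (D := D) iv s) := by
  intro i hi x y h
  apply wB_congr
  intro k h1
  apply h
  rw [mem_grpL] at hi ⊢
  rw [hi] at h1
  have : (k : ℕ) / s < g := (Nat.div_lt_iff_lt_mul hs).2 (by rwa [mul_comm])
  omega

/-- the shears of the positions `n, n-1, ..., 1` (in this order) -/
def arrA (pr : ∀ i : Fin D, A i → ZMod (q i)) (K K' : ∀ i, A i → A i → R)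
    (φ : ∀ i : Fin D, ZMod (q i) → A i → R) (iv : ℕ → ℕ → ℕ) (s : ℕ) :
    ℕ → ((∀ i, A i) → M) → ((∀ i, A i) → M)
  | 0, f => f
  | n + 1, f => arrA pr K K' φ iv s n (stepW pr K K' φ (posL s D (n + 1)) (wA iv s) f)

/-- the shears of the groups `n, n-1, ..., 1` (in this order) -/
def arrB (pr : ∀ i : Fin D, A i → ZMod (q i)) (K K' : ∀ i, A i → A i → R)
    (φ : ∀ i : Fin D, ZMod (q i) → A i → R) (iv : ℕ → ℕ → ℕ) (s : ℕ) :
    ℕ → ((∀ i, A i) → M) → ((∀ i, A i) → M)
  | 0, f => f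
  | n + 1, f => arrB pr K K' φ iv s n (stepW pr K K' φ (grpL s D (n + 1)) (wB iv s) f)

lemma opL_smul' (K : ∀ i, A i → A i → R) (l : List (Fin D)) (c : R) (f : (∀ i, A i) → M) :
    opL K l (c • f) = c • opL K l f := opL_smul K l c f

lemma stepW_smul (pr : ∀ i : Fin D, A i → ZMod (q i)) (K K' : ∀ i, A i → A i → R)
    (φ : ∀ i : Fin D, ZMod (q i) → A i → R) (l : List (Fin D))
    (w : ∀ i : Fin D, Tup q D → ZMod (q i)) (c : R) (f : (∀ i, A i) → M) :
    stepW pr K K' φ l w (c • f) = c • stepW pr K K' φ l w f := by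
  unfold stepW
  rw [opL_smul, diag_smul, opL_smul]

lemma arrA_smul (pr : ∀ i : Fin D, A i → ZMod (q i)) (K K' : ∀ i, A i → A i → R)
    (φ : ∀ i : Fin D, ZMod (q i) → A i → R) (iv : ℕ → ℕ → ℕ) (s n : ℕ) (c : R)
    (f : (∀ i, A i) → M) :
    arrA pr K K' φ iv s n (c • f) = c • arrA pr K K' φ iv s n f := by
  induction n generalizing f with
  | zero => rfl
  | succ n ih => rw [arrA, arrA, stepW_smul, ih]

lemma arrB_smul (pr : ∀ i : Fin D, A i → ZMod (q i)) (K K' : ∀ i, A i → A i → R)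
    (φ : ∀ i : Fin D, ZMod (q i) → A i → R) (iv : ℕ → ℕ → ℕ) (s n : ℕ) (c : R)
    (f : (∀ i, A i) → M) :
    arrB pr K K' φ iv s n (c • f) = c • arrB pr K K' φ iv s n f := by
  induction n generalizing f with
  | zero => rfl
  | succ n ih => rw [arrB, arrB, stepW_smul, ih]

/-- scale of the first part -/
def scA (r : Fin D → R) (s : ℕ) : ℕ → R
  | 0 => 1
  | n + 1 => ((posL s D (n + 1)).map r).prod * scA r s n

/-- scale of the second part -/
def scB (r : Fin D → R) (s : ℕ) : ℕ → R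
  | 0 => 1
  | n + 1 => ((grpL s D (n + 1)).map r).prod * scB r s n

/-- undo the positions, generalised index -/
def undoXA (pr : ∀ i : Fin D, A i → ZMod (q i)) (σ : ∀ i : Fin D, ZMod (q i) → A i → A i)
    (iv : ℕ → ℕ → ℕ) (s : ℕ) : ℕ → (∀ i, A i) → (∀ i, A i)
  | 0, x => x
  | n + 1, x => undoX pr σ (posL s D (n + 1)) (wA iv s) (undoXA pr σ iv s n x)

/-- undo the groups, generalised index -/
def undoXB (pr : ∀ i : Fin D, A i → ZMod (q i)) (σ : ∀ i : Fin D, ZMod (q i) → A i → A i)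
    (iv : ℕ → ℕ → ℕ) (s : ℕ) : ℕ → (∀ i, A i) → (∀ i, A i)
  | 0, x => x
  | n + 1, x => undoX pr σ (grpL s D (n + 1)) (wB iv s) (undoXB pr σ iv s n x)

lemma arrA_eq {pr : ∀ i : Fin D, A i → ZMod (q i)} {σ : ∀ i : Fin D, ZMod (q i) → A i → A i}
    {K K' : ∀ i, A i → A i → R} {φ : ∀ i : Fin D, ZMod (q i) → A i → R} {r : Fin D → R}
    (hK : ∀ i v a b, ∑ c, K' i a c * (φ i v c * K i c b) = if b = σ i v a then r i else 0)
    (iv : ℕ → ℕ → ℕ) (s n : ℕ) (f : (∀ i, A i) → M) :
    arrA pr K K' φ iv s n f = scA r s n • fun x => f (undoXA pr σ iv s n x) := by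
  induction n generalizing f with
  | zero => simp [arrA, scA, undoXA]
  | succ n ih =>
    rw [arrA, stepW_eq hK (nodup_posL s _) (free_wA iv _), arrA_smul, ih, smul_smul, scA]
    rfl

lemma arrB_eq {pr : ∀ i : Fin D, A i → ZMod (q i)} {σ : ∀ i : Fin D, ZMod (q i) → A i → A i}
    {K K' : ∀ i, A i → A i → R} {φ : ∀ i : Fin D, ZMod (q i) → A i → R} {r : Fin D → R}
    (hK : ∀ i v a b, ∑ c, K' i a c * (φ i v c * K i c b) = if b = σ i v a then r i else 0)
    (iv : ℕ → ℕ → ℕ) {s : ℕ} (hs : 0 < s) (n : ℕ) (f : (∀ i, A i) → M) :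
    arrB pr K K' φ iv s n f = scB r s n • fun x => f (undoXB pr σ iv s n x) := by
  induction n generalizing f with
  | zero => simp [arrB, scB, undoXB]
  | succ n ih =>
    rw [arrB, stepW_eq hK (nodup_grpL s _) (free_wB iv hs _), arrB_smul, ih, smul_smul, scB]
    rfl

lemma dgt_undoXA {pr : ∀ i : Fin D, A i → ZMod (q i)} {σ : ∀ i : Fin D, ZMod (q i) → A i → A i}
    (hσ : ∀ i v a, pr i (σ i v a) = pr i a - v) (iv : ℕ → ℕ → ℕ) (s n : ℕ) (x : ∀ i, A i) :
    dgt pr (undoXA pr σ iv s n x) = undoA iv s n (dgt pr x) := by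
  induction n with
  | zero => rfl
  | succ n ih =>
    rw [undoA, ← ih, undoXA]
    funext i
    simp only [dgt, undoX, undo]
    split_ifs with h
    · rw [hσ]
    · rfl

lemma dgt_undoXB {pr : ∀ i : Fin D, A i → ZMod (q i)} {σ : ∀ i : Fin D, ZMod (q i) → A i → A i}
    (hσ : ∀ i v a, pr i (σ i v a) = pr i a - v) (iv : ℕ → ℕ → ℕ) (s n : ℕ) (x : ∀ i, A i) :
    dgt pr (undoXB pr σ iv s n x) = undoB iv s n (dgt pr x) := by
  induction n with
  | zero => rfl
  | succ n ih =>
    rw [undoB, ← ih, undoXB]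
    funext i
    simp only [dgt, undoX, undo]
    split_ifs with h
    · rw [hσ]
    · rfl

end compose

/-! ### the two instances -/

section instances

variable {q : ℕ → ℕ} [∀ k, NeZero (q k)] {D : ℕ}
variable {R M : Type*} [CommRing R] [AddCommGroup M] [Module R M]

/-- shift of the digit, register kept -/
def sgU (i : Fin D) (v : ZMod (q i)) (a : Bool × ZMod (q i)) : Bool × ZMod (q i) :=
  (a.1, a.2 - v)

/-- the digit of a (register, digit) pair -/
def prU (i : Fin D) (a : Bool × ZMod (q i)) : ZMod (q i) := a.2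

lemma undoXA_fst (iv : ℕ → ℕ → ℕ) (s n : ℕ) (x : ∀ i : Fin D, Bool × ZMod (q i)) (i : Fin D) :
    (undoXA prU sgU iv s n x i).1 = (x i).1 := by
  induction n with
  | zero => rfl
  | succ n ih =>
    rw [undoXA]
    simp only [undoX]
    split_ifs
    · rw [← ih]; rfl
    · exact ih

lemma undoXB_fst (iv : ℕ → ℕ → ℕ) (s n : ℕ) (x : ∀ i : Fin D, Bool × ZMod (q i)) (i : Fin D) :
    (undoXB prU sgU iv s n x i).1 = (x i).1 := by
  induction n with
  | zero => rfl
  | succ n ih =>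
    rw [undoXB]
    simp only [undoX]
    split_ifs
    · rw [← ih]; rfl
    · exact ih

/-- CRT BY SHEARS, two registers: the array is re-indexed from mixed radix digits to residue
coordinates, simultaneously for all register values. -/
theorem crt_U {ψ : ∀ i : Fin D, AddChar (ZMod (q i)) R} (h : ∀ i, Orth (ψ i)) {g g' : Fin D → R}
    (hg : ∀ i, g i * g' i * (q i : ℕ) = 1) {iv : ℕ → ℕ → ℕ} {s t : ℕ} (hs : 0 < s)
    (hD : D ≤ s * (t + 1))
    (hiv : ∀ i k, i < D → k < i → (q k : ZMod (q i)) * (iv k i : ZMod (q i)) = 1)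
    (f : (∀ i : Fin D, Bool × ZMod (q i)) → M) (ρ : Fin D → Bool) {j : ℕ} (hj : j < up q 0 D) :
    arrB prU (fun i => kU (ψ i) (g i) (g' i)) (fun i => kU (ψ i) (g i) (g' i))
      (fun i => phU (ψ i)) iv s t
      (arrA prU (fun i => kU (ψ i) (g i) (g' i)) (fun i => kU (ψ i) (g i) (g' i))
        (fun i => phU (ψ i)) iv s (s - 1) f) (fun i => (ρ i, thetaT q iv D j i)) =
      (scA (fun _ : Fin D => (-1 : R)) s (s - 1) * scB (fun _ : Fin D => (-1 : R)) s t) •
        f (fun i => (ρ i, digT q D j i)) := by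
  have hK : ∀ (i : Fin D) (v : ZMod (q i)) (a b : Bool × ZMod (q i)),
      ∑ c, kU (ψ i) (g i) (g' i) a c * (phU (ψ i) v c * kU (ψ i) (g i) (g' i) c b) =
        if b = sgU i v a then (fun _ : Fin D => (-1 : R)) i else 0 :=
    fun i v a b => U_kernel (h i) (hg i) v a b
  have hσ : ∀ (i : Fin D) (v : ZMod (q i)) (a : Bool × ZMod (q i)),
      prU i (sgU i v a) = prU i a - v := fun _ _ _ => rfl
  rw [arrA_eq (σ := sgU) (r := fun _ => -1) hK, arrB_smul,
    arrB_eq (σ := sgU) (r := fun _ => -1) hK iv hs]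
  simp only [Pi.smul_apply, smul_smul]
  congr 2
  funext i
  apply Prod.ext
  · rw [undoXA_fst, undoXB_fst]
  · have h1 := dgt_undoXA (pr := prU) (σ := sgU) hσ iv s (s - 1)
      (undoXB prU sgU iv s t (fun i => (ρ i, thetaT q iv D j i)))
    rw [dgt_undoXB (pr := prU) (σ := sgU) hσ] at h1
    have h2 : dgt prU (fun i : Fin D => (ρ i, thetaT q iv D j i)) = thetaT q iv D j := rfl
    rw [h2, undo_theta hs hD hiv hj] at h1
    exact congrFun h1 i

/-- CRT BY SHEARS, plain Fourier transforms -/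
theorem crt_F {ψ : ∀ i : Fin D, AddChar (ZMod (q i)) R} (h : ∀ i, Orth (ψ i))
    {iv : ℕ → ℕ → ℕ} {s t : ℕ} (hs : 0 < s) (hD : D ≤ s * (t + 1))
    (hiv : ∀ i k, i < D → k < i → (q k : ZMod (q i)) * (iv k i : ZMod (q i)) = 1)
    (f : Tup q D → M) {j : ℕ} (hj : j < up q 0 D) :
    arrB (fun _ a => a) (fun i a b => ψ i (a * b)) (fun i a b => ψ i (-(a * b)))
      (fun i v k => ψ i (k * v)) iv s t
      (arrA (fun _ a => a) (fun i a b => ψ i (a * b)) (fun i a b => ψ i (-(a * b)))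
      (fun i v k => ψ i (k * v)) iv s (s - 1) f) (thetaT q iv D j) =
      (scA (fun i : Fin D => ((q i : ℕ) : R)) s (s - 1) *
        scB (fun i : Fin D => ((q i : ℕ) : R)) s t) • f (digT q D j) := by
  have hK : ∀ (i : Fin D) (v a b : ZMod (q i)),
      ∑ c, ψ i (-(a * c)) * (ψ i (c * v) * ψ i (c * b)) =
        if b = (fun (i : Fin D) (v a : ZMod (q i)) => a - v) i v a
          then (fun i : Fin D => ((q i : ℕ) : R)) i else 0 :=
    fun i v a b => four_kernel (h i) v a b
  have hσ : ∀ (i : Fin D) (v a : ZMod (q i)),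
      (fun (_ : Fin D) a => a) i ((fun (i : Fin D) (v a : ZMod (q i)) => a - v) i v a) =
        (fun (_ : Fin D) a => a) i a - v := fun _ _ _ => rfl
  rw [arrA_eq (σ := fun (i : Fin D) (v a : ZMod (q i)) => a - v) hK, arrB_smul,
    arrB_eq (σ := fun (i : Fin D) (v a : ZMod (q i)) => a - v) hK iv hs]
  simp only [Pi.smul_apply, smul_smul]
  congr 1
  have h1 := dgt_undoXA (pr := fun (i : Fin D) (a : ZMod (q i)) => a)
    (σ := fun (i : Fin D) (v a : ZMod (q i)) => a - v) hσ iv s (s - 1)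
    (undoXB (fun _ a => a) (fun (i : Fin D) (v a : ZMod (q i)) => a - v) iv s t (thetaT q iv D j))
  rw [dgt_undoXB (pr := fun (i : Fin D) (a : ZMod (q i)) => a)
    (σ := fun (i : Fin D) (v a : ZMod (q i)) => a - v) hσ] at h1
  have h2 : dgt (fun (i : Fin D) (a : ZMod (q i)) => a) (thetaT q iv D j) = thetaT q iv D j := rfl
  rw [h2, undo_theta hs hD hiv hj] at h1
  exact congrArg f h1

/-- the local residue coordinate in terms of the number of the group (super-digit) -/
theorem encA_eq {iv : ℕ → ℕ → ℕ} {s : ℕ} (hs : 0 < s) (i : Fin D)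
    (hiv : ∀ k, s * ((i : ℕ) / s) ≤ k → k < i → (q k : ZMod (q i)) * (iv k i : ZMod (q i)) = 1)
    (a : Tup q D) :
    encA iv s a i = (ivp iv i (s * ((i : ℕ) / s)) ((i : ℕ) % s) : ZMod (q i)) *
      (mv q (ext a) (s * ((i : ℕ) / s)) s : ZMod (q i)) := by
  have hdm := Nat.div_add_mod (i : ℕ) s
  have hlt := Nat.mod_lt (i : ℕ) hs
  set s0 := s * ((i : ℕ) / s) with hs0
  set p := (i : ℕ) % s with hp
  obtain ⟨r, hr⟩ : ∃ r, s = p + (r + 1) := ⟨s - p - 1, by omega⟩
  have h1 : mv q (ext a) s0 s =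
      mv q (ext a) s0 p + up q s0 p * (ext a i + q i * mv q (ext a) (i + 1) r) := by
    rw [hr, mv_add, mv, hdm]
  have h6 : (up q s0 p : ZMod (q i)) * (ivp iv i s0 p : ZMod (q i)) = 1 :=
    up_mul_ivp fun k h1 h2 => hiv k h1 (by omega)
  have h7 : (ext a i : ZMod (q i)) = a i := by
    unfold ext
    rw [dif_pos i.2, ZMod.natCast_val, ZMod.cast_id', id]
  unfold encA wA wloc
  rw [cast_mod_self, h1, ← hs0, ← hp]
  push_cast
  rw [CharP.cast_eq_zero (ZMod (q i)) (q i), h7]
  calc a i + (ivp iv i s0 p : ZMod (q i)) * mv q (ext a) s0 p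
      = ivp iv i s0 p * mv q (ext a) s0 p + (up q s0 p * ivp iv i s0 p) * a i := by
        rw [h6]; ring
    _ = _ := by ring

/-- LOCAL CRT BY SHEARS (super-digits = groups), two registers -/
theorem crt_A {ψ : ∀ i : Fin D, AddChar (ZMod (q i)) R} (h : ∀ i, Orth (ψ i)) {g g' : Fin D → R}
    (hg : ∀ i, g i * g' i * (q i : ℕ) = 1) (iv : ℕ → ℕ → ℕ) {s : ℕ} (hs : 0 < s)
    (f : (∀ i : Fin D, Bool × ZMod (q i)) → M) (ρ : Fin D → Bool) (a : Tup q D) :
    arrA prU (fun i => kU (ψ i) (g i) (g' i)) (fun i => kU (ψ i) (g i) (g' i))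
        (fun i => phU (ψ i)) iv s (s - 1) f (fun i => (ρ i, encA iv s a i)) =
      scA (fun _ : Fin D => (-1 : R)) s (s - 1) • f (fun i => (ρ i, a i)) := by
  have hK : ∀ (i : Fin D) (v : ZMod (q i)) (a b : Bool × ZMod (q i)),
      ∑ c, kU (ψ i) (g i) (g' i) a c * (phU (ψ i) v c * kU (ψ i) (g i) (g' i) c b) =
        if b = sgU i v a then (fun _ : Fin D => (-1 : R)) i else 0 :=
    fun i v a b => U_kernel (h i) (hg i) v a b
  have hσ : ∀ (i : Fin D) (v : ZMod (q i)) (a : Bool × ZMod (q i)),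
      prU i (sgU i v a) = prU i a - v := fun _ _ _ => rfl
  rw [arrA_eq (σ := sgU) (r := fun _ => -1) hK]
  simp only [Pi.smul_apply]
  congr 2
  funext i
  apply Prod.ext
  · rw [undoXA_fst]
  · have h1 := dgt_undoXA (pr := prU) (σ := sgU) hσ iv s (s - 1)
      (fun i => (ρ i, encA iv s a i))
    have h2 : dgt prU (fun i : Fin D => (ρ i, encA iv s a i)) = encA iv s a := rfl
    rw [h2, undoA_encA iv hs] at h1
    have h3 := congrFun h1 i
    rw [if_pos] at h3
    · exact h3
    · have := Nat.mod_lt (i : ℕ) hs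
      omega

end instances

end Vale.Agent.P338.R3.H955
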