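import Vale.Agent.P338.R3.H955.Stage
import Vale.Agent.P338.R3.H282.Coord

/-!
P338-D, module CRT (8): the stages of `H282.Step` on flat arrays, in the form `H282.Rel`.
-/

namespace Vale.Agent.P338.R3.H955

open Finset
open Vale.Agent.P338.R3.H282
open Vale.Agent.P338.R3.H352 (zt)

set_option linter.unusedSectionVars false

variable {M : Type*} [AddCommGroup M] [Module ℂ M] {δ : Type}
variable {G : Geo} [∀ k, NeZero (G.q k)] {hq : ∀ i : Fin G.d, G.q i ≤ 2 ^ G.a}

/-! ### coordinates -/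

theorem crd_enc (y : TA G.q G.d) (e : ℕ) : crd G (enc G (emb (em hq) y) e) = y := by
  funext i
  unfold crd
  rw [rb_enc _ e i.2, dv_enc _ e i.2]
  have h1 : pn G (emb (em hq) y) i = em hq i (y i) := by simp [pn, emb]
  rw [h1, em_mod, em_div]
  apply Prod.ext
  · simp only
    cases (y i).1 <;> simp
  · simp only
    exact ZMod.natCast_zmod_val _

theorem valid_enc (y : TA G.q G.d) (e : ℕ) : G.valid (enc G (emb (em hq) y) e) = true := by
  rw [valid_iff]
  intro i hi
  rw [dv_enc _ e hi]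
  have h1 : pn G (emb (em hq) y) i = em hq ⟨i, hi⟩ (y ⟨i, hi⟩) := by simp [pn, emb, hi]
  rw [h1, em_mod]
  exact ZMod.val_lt _

lemma ext_crd {u : ℕ} (hv : G.valid u = true) {k : ℕ} (hk : k < G.d) :
    ext (q := G.q) (D := G.d) (fun i => ((G.dv u i : ℕ) : ZMod (G.q i))) k = G.dv u k := by
  unfold ext
  rw [dif_pos hk]
  exact ZMod.val_cast_of_lt ((valid_iff u).1 hv k hk)

/-- a valid position as a tuple of digits of its mixed radix value -/
theorem crd_eq {u : ℕ} (hv : G.valid u = true) :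
    crd G u = mkT (fun i => G.rb u i) (digT G.q G.d (G.dj u)) := by
  funext i
  unfold crd mkT digT Geo.dj
  rw [dig_mv (fun k hk => (valid_iff u).1 hv k hk) i.2]

theorem dj_lt {u : ℕ} (hv : G.valid u = true) : G.dj u < up G.q 0 G.d :=
  mv_lt fun k _ hk => (valid_iff u).1 hv k (by omega)

/-! ### one step -/

theorem rel_dg {c : DC δ} {lv : ℕ → δ → ℕ → ℂ} {F : ℕ → M}
    {g : ℕ → TA G.q G.d → M} {Dg : ℕ → TA G.q G.d → ℂ} (h : Rel hq F g)
    (hD : ∀ e < 2 ^ (G.s - G.d), ∀ y, G.val lv c (enc G (emb (em hq) y) e) = Dg e y) :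
    Rel hq (St.ex G lv (.dg c) F) fun e => gdiag (Dg e) (g e) := by
  intro e he
  have h1 : toC G (St.ex G lv (.dg c) F) e =
      gdiag (fun p => G.val lv c (enc G p e)) (toC G F e) := rfl
  rw [h1, h e he, gdiag_ext em_injective (hD e he)]

theorem rel_W {prog : List (Ly δ)} (hp : ∀ l ∈ prog, l.ok G.a) {lv : ℕ → δ → ℕ → ℂ}
    (hW : ∀ i : Fin G.d, Twin (em hq) i (pmat G.a (lv (G.q i)) prog) (Wk G.q i))
    {J : List (Fin G.d)} (hJ : J.Nodup) {F : ℕ → M} {g : ℕ → TA G.q G.d → M}
    (h : Rel hq F g) :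
    Rel hq (exs G lv (G.W prog (J.map Fin.val)) F) fun e => lock J (Wk G.q) (g e) := by
  intro e he
  rw [toC_W hJ hp, h e he, lock_ext em_injective J fun i _ => hW i]

/-! ### the phases -/

lemma map_val_filter {S : ℕ} (P : ℕ → Bool) :
    ((List.finRange S).filter fun i : Fin S => P i).map Fin.val = (List.range S).filter P := by
  rw [← List.map_coe_finRange_eq_range, List.filter_map]
  rfl

lemma posL_map (p : ℕ) : (posL G.gs G.d p).map Fin.val = G.posJ p :=
  map_val_filter fun i => decide (i % G.gs = p)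

lemma grpL_map (g : ℕ) : (grpL G.gs G.d g).map Fin.val = G.grpJ g :=
  map_val_filter fun i => decide (i / G.gs = g)

lemma ph_eq (neg : Bool) (u : ℕ) (i : Fin G.d) (w : ℕ) :
    G.ph neg u i w =
      -phU (psi (G.q i)) (if neg then -((w : ℕ) : ZMod (G.q i)) else ((w : ℕ) : ZMod (G.q i)))
        (crd G u i) := by
  unfold Geo.ph crd
  rw [← psi_int]
  cases G.rb u i <;> cases neg <;>
    simp only [phU, if_true, reduceCtorEq, if_false, Bool.false_eq_true] <;>
    push_cast <;> congr 2 <;> ring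

/-- the diagonal `shA` -/
theorem val_shA (lv : ℕ → δ → ℕ → ℂ) {u : ℕ} (hv : G.valid u = true) (neg : Bool) (p : ℕ) :
    G.val lv (.shA neg p) u =
      phS neg (posL G.gs G.d p) (wA G.iv G.gs) (crd G u) := by
  change ((G.posJ p).map fun i => G.ph neg u i (G.wa u i)).prod = _
  unfold phS
  rw [← posL_map, List.map_map]
  congr 1
  apply List.map_congr_left
  intro i _
  simp only [Function.comp_apply]
  rw [ph_eq]
  have h1 : (wA G.iv G.gs i fun j => (crd G u j).2) = ((G.wa u i : ℕ) : ZMod (G.q i)) := by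
    change ((wloc G.q G.iv G.gs i
      (ext fun j : Fin G.d => ((G.dv u j : ℕ) : ZMod (G.q j))) : ℕ) : ZMod (G.q i)) = _
    unfold Geo.wa
    rw [wloc_congr fun k _ hk => ext_crd hv (lt_trans hk i.2)]
  rw [h1]

/-- the diagonal `shB` -/
theorem val_shB (lv : ℕ → δ → ℕ → ℂ) {u : ℕ} (hv : G.valid u = true) (neg : Bool) (g : ℕ) :
    G.val lv (.shB neg g) u =
      phS neg (grpL G.gs G.d g) (wB G.iv G.gs) (crd G u) := by
  change ((G.grpJ g).map fun i => G.ph neg u i (G.wb u i)).prod = _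
  unfold phS
  rw [← grpL_map, List.map_map]
  congr 1
  apply List.map_congr_left
  intro i _
  simp only [Function.comp_apply]
  rw [ph_eq]
  have h1 : (wB G.iv G.gs i fun j => (crd G u j).2) = ((G.wb u i : ℕ) : ZMod (G.q i)) := by
    change ((wglob G.q G.iv G.gs i (fun k => (decL G.q G.iv G.gs
      (ext fun j : Fin G.d => ((G.dv u j : ℕ) : ZMod (G.q j))) (G.gs * (i / G.gs))).getD k 0) :
      ℕ) : ZMod (G.q i)) = _
    unfold Geo.wb
    have hle := Nat.mul_div_le (i : ℕ) G.gs
    rw [decL_congr fun k hk => ext_crd hv (by have := i.2; omega)]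
  rw [h1]

/-! ### the stages -/

section run

variable {prog : List (Ly δ)} {lv : ℕ → δ → ℕ → ℂ}

theorem rel_stA (hp : ∀ l ∈ prog, l.ok G.a)
    (hW : ∀ i : Fin G.d, Twin (em hq) i (pmat G.a (lv (G.q i)) prog) (Wk G.q i))
    {F : ℕ → M} {g : ℕ → TA G.q G.d → M} (h : Rel hq F g) (neg : Bool) (p : ℕ) :
    Rel hq (exs G lv (G.stA prog neg p) F)
      fun e => stage neg (posL G.gs G.d p) (wA G.iv G.gs) (g e) := by
  unfold Geo.stA
  rw [exs_append, exs_cons, ← posL_map]
  exact rel_W hp hW (nodup_posL _ _) (rel_dg (rel_W hp hW (nodup_posL _ _) h)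
    fun e _ y => by rw [val_shA lv (valid_enc y e), crd_enc])

theorem rel_stB (hp : ∀ l ∈ prog, l.ok G.a)
    (hW : ∀ i : Fin G.d, Twin (em hq) i (pmat G.a (lv (G.q i)) prog) (Wk G.q i))
    {F : ℕ → M} {g : ℕ → TA G.q G.d → M} (h : Rel hq F g) (neg : Bool) (p : ℕ) :
    Rel hq (exs G lv (G.stB prog neg p) F)
      fun e => stage neg (grpL G.gs G.d p) (wB G.iv G.gs) (g e) := by
  unfold Geo.stB
  rw [exs_append, exs_cons, ← grpL_map]
  exact rel_W hp hW (nodup_grpL _ _) (rel_dg (rel_W hp hW (nodup_grpL _ _) h)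
    fun e _ y => by rw [val_shB lv (valid_enc y e), crd_enc])

theorem rel_listA (hp : ∀ l ∈ prog, l.ok G.a)
    (hW : ∀ i : Fin G.d, Twin (em hq) i (pmat G.a (lv (G.q i)) prog) (Wk G.q i))
    {F : ℕ → M} {g : ℕ → TA G.q G.d → M} (h : Rel hq F g) (neg : Bool) (L : List ℕ) :
    Rel hq (exs G lv (L.flatMap (G.stA prog neg)) F)
      fun e => runS neg (L.map fun p => (posL G.gs G.d p, wA G.iv G.gs)) (g e) := by
  induction L generalizing F g with
  | nil => exact h
  | cons p L ih =>
    rw [List.flatMap_cons, exs_append]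
    exact ih (rel_stA hp hW h neg p)

theorem rel_listB (hp : ∀ l ∈ prog, l.ok G.a)
    (hW : ∀ i : Fin G.d, Twin (em hq) i (pmat G.a (lv (G.q i)) prog) (Wk G.q i))
    {F : ℕ → M} {g : ℕ → TA G.q G.d → M} (h : Rel hq F g) (neg : Bool) (L : List ℕ) :
    Rel hq (exs G lv (L.flatMap (G.stB prog neg)) F)
      fun e => runS neg (L.map fun p => (grpL G.gs G.d p, wB G.iv G.gs)) (g e) := by
  induction L generalizing F g with
  | nil => exact h
  | cons p L ih =>
    rw [List.flatMap_cons, exs_append]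
    exact ih (rel_stB hp hW h neg p)

/-- the CRT stages of `Geo.fwd` -/
def midF (G : Geo) (prog : List (Ly δ)) : List (St δ) :=
  (List.range' 1 (G.gs - 1)).reverse.flatMap (G.stA prog false) ++
    (List.range' 1 G.t).reverse.flatMap (G.stB prog false)

/-- the CRT stages of `Geo.bwd` -/
def midB (G : Geo) (prog : List (Ly δ)) : List (St δ) :=
  (List.range' 1 G.t).flatMap (G.stB prog true) ++
    (List.range' 1 (G.gs - 1)).flatMap (G.stA prog true)

lemma fwd_eq (G : Geo) (prog : List (Ly δ)) : G.fwd prog =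
    (List.range G.s).reverse.flatMap G.selF ++ (midF G prog ++ G.W prog (List.range G.d)) := by
  unfold Geo.fwd midF
  rw [List.append_assoc]

lemma bwd_eq (G : Geo) (prog : List (Ly δ)) : G.bwd prog =
    .dg .corr :: (G.W prog (List.range G.d) ++
      (midB G prog ++ (List.range G.s).flatMap G.selI)) := by
  unfold Geo.bwd midB
  rw [List.append_assoc]

/-- the steps of the CRT stages of a geometry -/
def Geo.steps (G : Geo) [∀ k, NeZero (G.q k)] : ShL G.q G.d := stepsD G.q G.d G.iv G.gs G.t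

/-- residue coordinates to digits -/
def Geo.toDig (G : Geo) [∀ k, NeZero (G.q k)] (x : TA G.q G.d) : TA G.q G.d :=
  onT (undoS (Geo.steps G).reverse) x

/-- digits to residue coordinates -/
def Geo.toRes (G : Geo) [∀ k, NeZero (G.q k)] (x : TA G.q G.d) : TA G.q G.d :=
  onT (redoS (Geo.steps G)) x

/-- FORWARD CRT STAGE: the array at residue coordinates is the array at the digits -/
theorem rel_midF (hs : 0 < G.gs) (hp : ∀ l ∈ prog, l.ok G.a)
    (hW : ∀ i : Fin G.d, Twin (em hq) i (pmat G.a (lv (G.q i)) prog) (Wk G.q i))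
    {F : ℕ → M} {g : ℕ → TA G.q G.d → M} (h : Rel hq F g) :
    Rel hq (exs G lv (midF G prog) F) fun e y => g e (Geo.toDig G y) := by
  have h1 := rel_listB hp hW (rel_listA hp hW h false (List.range' 1 (G.gs - 1)).reverse) false
    (List.range' 1 G.t).reverse
  have h2 : (fun e y => g e (Geo.toDig G y)) = fun e => runS false
      ((List.range' 1 G.t).reverse.map fun p => (grpL G.gs G.d p, wB G.iv G.gs))
      (runS false ((List.range' 1 (G.gs - 1)).reverse.map fun p =>
        (posL G.gs G.d p, wA G.iv G.gs)) (g e)) := by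
    funext e
    have h3 := runS_false (freeS_stepsD (q := G.q) (D := G.d) G.iv hs G.t).reverse (g e)
    rw [List.map_reverse, List.map_reverse]
    unfold Geo.toDig Geo.steps
    rw [← h3]
    unfold stepsD
    rw [List.reverse_append]
    unfold runS
    rw [List.foldl_append]
    rfl
  rw [h2]
  unfold midF
  rw [exs_append]
  exact h1

/-- BACKWARD CRT STAGE -/
theorem rel_midB (hs : 0 < G.gs) (hp : ∀ l ∈ prog, l.ok G.a)
    (hW : ∀ i : Fin G.d, Twin (em hq) i (pmat G.a (lv (G.q i)) prog) (Wk G.q i))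
    {F : ℕ → M} {g : ℕ → TA G.q G.d → M} (h : Rel hq F g) :
    Rel hq (exs G lv (midB G prog) F) fun e y => g e (Geo.toRes G y) := by
  have h1 := rel_listA hp hW (rel_listB hp hW h true (List.range' 1 G.t)) true
    (List.range' 1 (G.gs - 1))
  have h2 : (fun e y => g e (Geo.toRes G y)) = fun e => runS true
      ((List.range' 1 (G.gs - 1)).map fun p => (posL G.gs G.d p, wA G.iv G.gs))
      (runS true ((List.range' 1 G.t).map fun p =>
        (grpL G.gs G.d p, wB G.iv G.gs)) (g e)) := by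
    funext e
    have h3 := runS_true (freeS_stepsD (q := G.q) (D := G.d) G.iv hs G.t) (g e)
    unfold Geo.toRes Geo.steps
    rw [← h3]
    unfold stepsD runS
    rw [List.foldl_append]
    rfl
  rw [h2]
  unfold midB
  rw [exs_append]
  exact h1

end run

/-! ### the index maps -/

theorem toRes_toDig (hs : 0 < G.gs) (x : TA G.q G.d) : Geo.toRes G (Geo.toDig G x) = x := by
  have h := redoS_undoS (freeS_stepsD (q := G.q) (D := G.d) G.iv hs G.t) fun j => (x j).2
  funext i
  exact Prod.ext rfl (congrFun h i)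

theorem toDig_toRes (hs : 0 < G.gs) (x : TA G.q G.d) : Geo.toDig G (Geo.toRes G x) = x := by
  have h := undoS_redoS (freeS_stepsD (q := G.q) (D := G.d) G.iv hs G.t) fun j => (x j).2
  funext i
  exact Prod.ext rfl (congrFun h i)

theorem toDig_theta (hs : 0 < G.gs) (hD : G.d ≤ G.gs * (G.t + 1))
    (hiv : ∀ i k, i < G.d → k < i → (G.q k : ZMod (G.q i)) * (G.iv k i : ZMod (G.q i)) = 1)
    (ρ : Fin G.d → Bool) {j : ℕ} (hj : j < up G.q 0 G.d) :
    Geo.toDig G (mkT ρ (thetaT G.q G.iv G.d j)) = mkT ρ (digT G.q G.d j) := by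
  unfold Geo.toDig Geo.steps
  rw [onT_mkT, undoS_theta hs hD hiv hj]

theorem toRes_dig (hs : 0 < G.gs) (hD : G.d ≤ G.gs * (G.t + 1))
    (hiv : ∀ i k, i < G.d → k < i → (G.q k : ZMod (G.q i)) * (G.iv k i : ZMod (G.q i)) = 1)
    (ρ : Fin G.d → Bool) {j : ℕ} (hj : j < up G.q 0 G.d) :
    Geo.toRes G (mkT ρ (digT G.q G.d j)) = mkT ρ (thetaT G.q G.iv G.d j) := by
  unfold Geo.toRes Geo.steps
  rw [onT_mkT, redoS_digits hs hD hiv hj]

end Vale.Agent.P338.R3.H955
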