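import Vale.Agent.P338.R3.H955.Digits
import Vale.Agent.Lib.PolyTime.NatArith2
import Vale.Agent.Lib.PolyTime.Lists2

/-!
P338-D, module CRT (5): the index functions of `Digits` are computable in polynomial time.
-/

namespace Vale.Agent.P338.R3.H955

open Vale.Agent.Lib.PolyTime

variable {A : Set Word} {α : Type*} [Enc α]

lemma range'_eq_map (s n : ℕ) : List.range' s n = (List.range n).map (s + ·) := by
  rw [List.range_eq_range', List.map_add_range', Nat.add_zero]

lemma mv_eq_range (q a : ℕ → ℕ) (s n : ℕ) :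
    mv q a s n = (List.range n).foldr (fun k v => a (s + k) + q (s + k) * v) 0 := by
  rw [mv_eq_foldr, range'_eq_map, List.foldr_map]

lemma up_eq_range (q : ℕ → ℕ) (s n : ℕ) :
    up q s n = (List.range n).foldr (fun k v => q (s + k) * v) 1 := by
  rw [up_eq_foldr, range'_eq_map, List.foldr_map]

lemma foldr_bound {B : ℕ} (q a : ℕ → ℕ) (l : List ℕ) (hq : ∀ k ∈ l, q k < 2 ^ B)
    (ha : ∀ k ∈ l, a k < 2 ^ B) :
    l.foldr (fun k v => a k + q k * v) 0 < 2 ^ (B * l.length) := by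
  induction l with
  | nil => simp
  | cons k l ih =>
    rw [List.foldr_cons, List.length_cons, Nat.mul_succ, pow_add]
    have h1 := ih (fun k hk => hq k (List.mem_cons_of_mem _ hk))
      (fun k hk => ha k (List.mem_cons_of_mem _ hk))
    have h2 := hq k List.mem_cons_self
    have h3 := ha k List.mem_cons_self
    set X := l.foldr (fun k v => a k + q k * v) 0
    have h4 : q k * X ≤ 2 ^ B * X := Nat.mul_le_mul_right _ h2.le
    calc a k + q k * X < 2 ^ B + 2 ^ B * X := by omega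
      _ = 2 ^ B * (X + 1) := by ring
      _ ≤ 2 ^ B * 2 ^ (B * l.length) := Nat.mul_le_mul_left _ h1
      _ = 2 ^ (B * l.length) * 2 ^ B := by ring

lemma foldr_bound' {B : ℕ} (q : ℕ → ℕ) (l : List ℕ) (hq : ∀ k ∈ l, q k < 2 ^ B) :
    l.foldr (fun k v => q k * v) 1 < 2 ^ (B * l.length + 1) := by
  induction l with
  | nil => simp
  | cons k l ih =>
    rw [List.foldr_cons, List.length_cons, Nat.mul_succ,
      show B * l.length + B + 1 = (B * l.length + 1) + B by ring, pow_add]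
    have h1 := ih (fun k hk => hq k (List.mem_cons_of_mem _ hk))
    have h2 := hq k List.mem_cons_self
    set X := l.foldr (fun k v => q k * v) 1
    calc q k * X ≤ 2 ^ B * X := Nat.mul_le_mul_right _ h2.le
      _ < 2 ^ B * 2 ^ (B * l.length + 1) := by
        exact Nat.mul_lt_mul_of_pos_left h1 (by positivity)
      _ = 2 ^ (B * l.length + 1) * 2 ^ B := by ring

lemma lt_two_pow_esize (n : ℕ) : n < 2 ^ esize n := by
  rw [esize_nat]; exact Nat.lt_size_self n

theorem pt_mv {q a : α → ℕ → ℕ} {s n : α → ℕ} (hq : PT A (fun p : α × ℕ => q p.1 p.2))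
    (ha : PT A (fun p : α × ℕ => a p.1 p.2)) (hs : PT A s) (hn : PT A n) (hnb : PBd n) :
    PT A (fun x => mv (q x) (a x) (s x) (n x)) := by
  have hr : PT A (fun x => List.range (n x)) := PT.range hn hnb
  have hsk : PT A (fun p : α × ℕ => s p.1 + p.2) := PT.add (hs.comp PT.fst') PT.snd'
  have hq' : PT A (fun p : α × ℕ => q p.1 (s p.1 + p.2)) := hq.comp (PT.fst'.pair hsk)
  have ha' : PT A (fun p : α × ℕ => a p.1 (s p.1 + p.2)) := ha.comp (PT.fst'.pair hsk)
  obtain ⟨bq, hbq, hbq'⟩ := PT.bound_mem (f := fun x k => q x (s x + k)) hr hq'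
  obtain ⟨ba, hba, hba'⟩ := PT.bound_mem (f := fun x k => a x (s x + k)) hr ha'
  refine (PT.foldr (l := fun x => List.range (n x)) (init := fun _ => 0)
    (f := fun x k v => a x (s x + k) + q x (s x + k) * v) hr (PT.const 0) ?_
    (b := fun x => (bq x + ba x) * n x) ((hbq.add hba).mul hnb) fun x i => ?_).congr
    fun x => (mv_eq_range _ _ _ _).symm
  · have h1 : PT A (fun p : α × ℕ × ℕ => (p.1, p.2.1)) := PT.fst'.pair PT.snd'.fst
    exact PT.add (ha'.comp h1) (PT.mul (hq'.comp h1) PT.snd'.snd)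
  · have hsub : ∀ k ∈ (List.range (n x)).drop i, k ∈ List.range (n x) :=
      fun k hk => List.mem_of_mem_drop hk
    apply esize_nat_le
    refine (foldr_bound (B := bq x + ba x) _ _ _ (fun k hk => ?_) fun k hk => ?_).trans_le ?_
    · exact (lt_two_pow_esize _).trans_le (Nat.pow_le_pow_right (by norm_num)
        ((hbq' x k (hsub k hk)).trans (Nat.le_add_right _ _)))
    · exact (lt_two_pow_esize _).trans_le (Nat.pow_le_pow_right (by norm_num)
        ((hba' x k (hsub k hk)).trans (Nat.le_add_left _ _)))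
    · apply Nat.pow_le_pow_right (by norm_num)
      apply Nat.mul_le_mul_left
      rw [List.length_drop, List.length_range]
      exact Nat.sub_le _ _

theorem pt_up {q : α → ℕ → ℕ} {s n : α → ℕ} (hq : PT A (fun p : α × ℕ => q p.1 p.2))
    (hs : PT A s) (hn : PT A n) (hnb : PBd n) :
    PT A (fun x => up (q x) (s x) (n x)) := by
  have hr : PT A (fun x => List.range (n x)) := PT.range hn hnb
  have hsk : PT A (fun p : α × ℕ => s p.1 + p.2) := PT.add (hs.comp PT.fst') PT.snd'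
  have hq' : PT A (fun p : α × ℕ => q p.1 (s p.1 + p.2)) := hq.comp (PT.fst'.pair hsk)
  obtain ⟨bq, hbq, hbq'⟩ := PT.bound_mem (f := fun x k => q x (s x + k)) hr hq'
  refine (PT.foldr (l := fun x => List.range (n x)) (init := fun _ => 1)
    (f := fun x k v => q x (s x + k) * v) hr (PT.const 1) ?_
    (b := fun x => bq x * n x + 1) ((hbq.mul hnb).add (PBd.const 1)) fun x i => ?_).congr
    fun x => (up_eq_range _ _ _).symm
  · have h1 : PT A (fun p : α × ℕ × ℕ => (p.1, p.2.1)) := PT.fst'.pair PT.snd'.fst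
    exact PT.mul (hq'.comp h1) PT.snd'.snd
  · have hsub : ∀ k ∈ (List.range (n x)).drop i, k ∈ List.range (n x) :=
      fun k hk => List.mem_of_mem_drop hk
    apply esize_nat_le
    refine (foldr_bound' (B := bq x) _ _ (fun k hk => ?_)).trans_le ?_
    · exact (lt_two_pow_esize _).trans_le (Nat.pow_le_pow_right (by norm_num)
        (hbq' x k (hsub k hk)))
    · apply Nat.pow_le_pow_right (by norm_num)
      have : ((List.range (n x)).drop i).length ≤ n x := by
        rw [List.length_drop, List.length_range]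
        exact Nat.sub_le _ _
      have := Nat.mul_le_mul_left (bq x) this
      omega

theorem pt_ivp {iv : α → ℕ → ℕ → ℕ} {i s n : α → ℕ}
    (hiv : PT A (fun p : α × ℕ × ℕ => iv p.1 p.2.1 p.2.2)) (hi : PT A i)
    (hs : PT A s) (hn : PT A n) (hnb : PBd n) :
    PT A (fun x => ivp (iv x) (i x) (s x) (n x)) :=
  pt_up (q := fun x k => iv x k (i x))
    (hiv.comp (PT.fst'.pair (PT.snd'.pair (hi.comp PT.fst')))) hs hn hnb

theorem pbd_of_le {b b' : α → ℕ} (hb : PBd b) (h : ∀ a, b' a ≤ b a) : PBd b' := hb.mono h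

theorem pt_wloc {q : α → ℕ → ℕ} {iv : α → ℕ → ℕ → ℕ} {s i : α → ℕ} {a : α → ℕ → ℕ}
    (hq : PT A (fun p : α × ℕ => q p.1 p.2))
    (hiv : PT A (fun p : α × ℕ × ℕ => iv p.1 p.2.1 p.2.2)) (hs : PT A s) (hi : PT A i)
    (hib : PBd i) (ha : PT A (fun p : α × ℕ => a p.1 p.2)) :
    PT A (fun x => wloc (q x) (iv x) (s x) (i x) (a x)) := by
  unfold wloc
  have h1 : PT A (fun x => s x * (i x / s x)) := PT.mul hs (PT.div hi hs)
  have h2 : PT A (fun x => i x % s x) := PT.mod hi hs
  have h3 : PBd (fun x => i x % s x) := hib.mono fun x => Nat.mod_le _ _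
  exact PT.mod (PT.mul (pt_ivp hiv hi h1 h2 h3) (pt_mv hq ha h1 h2 h3))
    (hq.comp (PT.id.pair hi))

theorem pt_wglob {q : α → ℕ → ℕ} {iv : α → ℕ → ℕ → ℕ} {s i : α → ℕ} {a : α → ℕ → ℕ}
    (hq : PT A (fun p : α × ℕ => q p.1 p.2))
    (hiv : PT A (fun p : α × ℕ × ℕ => iv p.1 p.2.1 p.2.2)) (hs : PT A s) (hi : PT A i)
    (hib : PBd i) (ha : PT A (fun p : α × ℕ => a p.1 p.2)) :
    PT A (fun x => wglob (q x) (iv x) (s x) (i x) (a x)) := by
  unfold wglob
  have h1 : PT A (fun x => s x * (i x / s x)) := PT.mul hs (PT.div hi hs)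
  have h3 : PBd (fun x => s x * (i x / s x)) := hib.mono fun x => Nat.mul_div_le _ _
  exact PT.mod (PT.mul (pt_ivp hiv hi (PT.const 0) hi hib) (pt_mv hq ha (PT.const 0) h1 h3))
    (hq.comp (PT.id.pair hi))

theorem pt_theta {q : α → ℕ → ℕ} {iv : α → ℕ → ℕ → ℕ} {i j : α → ℕ}
    (hq : PT A (fun p : α × ℕ => q p.1 p.2))
    (hiv : PT A (fun p : α × ℕ × ℕ => iv p.1 p.2.1 p.2.2)) (hi : PT A i)
    (hib : PBd i) (hj : PT A j) :
    PT A (fun x => theta (q x) (iv x) (i x) (j x)) := by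
  unfold theta
  exact PT.mod (PT.mul (pt_ivp hiv hi (PT.const 0) hi hib) hj) (hq.comp (PT.id.pair hi))

theorem pt_dig {q : α → ℕ → ℕ} {j k : α → ℕ} (hq : PT A (fun p : α × ℕ => q p.1 p.2))
    (hj : PT A j) (hk : PT A k) (hkb : PBd k) : PT A (fun x => dig (q x) (j x) (k x)) := by
  unfold dig
  exact PT.mod (PT.div hj (pt_up hq (PT.const 0) hk hkb)) (hq.comp (PT.id.pair hk))

/-- one decoding step, the index is the length of the list -/
def decSt (q : ℕ → ℕ) (iv : ℕ → ℕ → ℕ) (s : ℕ) (y : ℕ → ℕ) (l : List ℕ) : List ℕ :=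
  l ++ [(y l.length + (q l.length - wloc q iv s l.length (fun k => l.getD k 0))) % q l.length]

lemma decL_eq_iterate (q : ℕ → ℕ) (iv : ℕ → ℕ → ℕ) (s : ℕ) (y : ℕ → ℕ) (n : ℕ) :
    decL q iv s y n = (decSt q iv s y)^[n] [] := by
  induction n with
  | zero => rfl
  | succ n ih =>
    rw [Function.iterate_succ_apply', ← ih, decSt, length_decL, decL]

lemma decL_mem_lt {q : ℕ → ℕ} (iv : ℕ → ℕ → ℕ) (s : ℕ) (y : ℕ → ℕ) (hq : ∀ k, 0 < q k) {n x : ℕ}
    (hx : x ∈ decL q iv s y n) : ∃ k < n, x < q k := by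
  induction n with
  | zero => simp [decL] at hx
  | succ n ih =>
    rw [decL, List.mem_append] at hx
    rcases hx with hx | hx
    · obtain ⟨k, hk, h⟩ := ih hx
      exact ⟨k, by omega, h⟩
    · rw [List.mem_singleton] at hx
      exact ⟨n, by omega, hx ▸ Nat.mod_lt _ (hq n)⟩

theorem pt_decL {q : α → ℕ → ℕ} {iv : α → ℕ → ℕ → ℕ} {s n : α → ℕ} {y : α → ℕ → ℕ}
    (hq : PT A (fun p : α × ℕ => q p.1 p.2)) (hq0 : ∀ x k, 0 < q x k)
    (hiv : PT A (fun p : α × ℕ × ℕ => iv p.1 p.2.1 p.2.2)) (hs : PT A s) (hn : PT A n)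
    (hnb : PBd n) (hy : PT A (fun p : α × ℕ => y p.1 p.2)) :
    PT A (fun x => decL (q x) (iv x) (s x) (y x) (n x)) := by
  have hr : PT A (fun x => List.range (n x)) := PT.range hn hnb
  obtain ⟨bq, hbq, hbq'⟩ := PT.bound_mem (f := fun x k => q x k) hr hq
  refine (PT.iterate' (init := fun _ => ([] : List ℕ))
    (step := fun x l => decSt (q x) (iv x) (s x) (y x) l) hn hnb (PT.const []) ?_
    (b := fun x => n x * (2 * bq x + 1)) (hnb.mul (((PBd.const 2).mul hbq).add (PBd.const 1)))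
    fun x j hj => ?_).congr fun x => (decL_eq_iterate _ _ _ _ _).symm
  · have hlen : PT A (fun p : α × List ℕ => p.2.length) := PT.length PT.snd'
    have hlb : PBd (fun p : α × List ℕ => p.2.length) := PBd.length (PT.snd' (A := A))
    have hqc : PT A (fun p : (α × List ℕ) × ℕ => q p.1.1 p.2) :=
      hq.comp (PT.fst'.fst.pair PT.snd')
    have hivc : PT A (fun p : (α × List ℕ) × ℕ × ℕ => iv p.1.1 p.2.1 p.2.2) :=
      hiv.comp (PT.fst'.fst.pair PT.snd')
    have hget : PT A (fun p : (α × List ℕ) × ℕ => p.1.2.getD p.2 0) :=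
      PT.getD PT.fst'.snd PT.snd' (PT.const 0)
    have hw : PT A (fun p : α × List ℕ =>
        wloc (q p.1) (iv p.1) (s p.1) p.2.length (fun k => p.2.getD k 0)) :=
      pt_wloc (α := α × List ℕ) (q := fun p => q p.1) (iv := fun p => iv p.1)
        (s := fun p => s p.1) (i := fun p => p.2.length) (a := fun p k => p.2.getD k 0)
        hqc hivc (hs.comp PT.fst') hlen hlb hget
    have hql : PT A (fun p : α × List ℕ => q p.1 p.2.length) := hq.comp (PT.fst'.pair hlen)
    have hyl : PT A (fun p : α × List ℕ => y p.1 p.2.length) := hy.comp (PT.fst'.pair hlen)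
    unfold decSt
    exact PT.append PT.snd' (PT.cons (PT.mod (PT.add hyl (PT.sub hql hw)) hql) PT.nil)
  · rw [← decL_eq_iterate]
    have h1 : esize (decL (q x) (iv x) (s x) (y x) j) ≤
        (decL (q x) (iv x) (s x) (y x) j).length * (2 * bq x + 1) := by
      apply esize_list_le
      intro z hz
      obtain ⟨k, hk, h⟩ := decL_mem_lt _ _ _ (hq0 x) hz
      exact (esize_nat_mono h.le).trans (hbq' x k (List.mem_range.2 (by omega)))
    rw [length_decL] at h1
    exact h1.trans (Nat.mul_le_mul_right _ hj)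

/-- the global shift as a function of the local residues -/
def wgl (q : ℕ → ℕ) (iv : ℕ → ℕ → ℕ) (s i : ℕ) (y : ℕ → ℕ) : ℕ :=
  wglob q iv s i (fun k => (decL q iv s y (s * (i / s))).getD k 0)

theorem pt_wgl {q : α → ℕ → ℕ} {iv : α → ℕ → ℕ → ℕ} {s i : α → ℕ} {y : α → ℕ → ℕ}
    (hq : PT A (fun p : α × ℕ => q p.1 p.2)) (hq0 : ∀ x k, 0 < q x k)
    (hiv : PT A (fun p : α × ℕ × ℕ => iv p.1 p.2.1 p.2.2)) (hs : PT A s) (hi : PT A i)
    (hib : PBd i) (hy : PT A (fun p : α × ℕ => y p.1 p.2)) :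
    PT A (fun x => wgl (q x) (iv x) (s x) (i x) (y x)) := by
  unfold wgl
  have h1 : PT A (fun x => s x * (i x / s x)) := PT.mul hs (PT.div hi hs)
  have h3 : PBd (fun x => s x * (i x / s x)) := hib.mono fun x => Nat.mul_div_le _ _
  have hd := pt_decL hq hq0 hiv hs h1 h3 hy
  exact pt_wglob hq hiv hs hi hib (PT.getD (hd.comp PT.fst') PT.snd' (PT.const 0))

set_option linter.unusedSectionVars false

section tuples

variable {q : ℕ → ℕ} [∀ k, NeZero (q k)] {D : ℕ}

lemma wA_eq (iv : ℕ → ℕ → ℕ) (s : ℕ) (i : Fin D) (x : Tup q D) :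
    wA iv s i x = (wloc q iv s i (ext x) : ℕ) := rfl

lemma wB_eq (iv : ℕ → ℕ → ℕ) (s : ℕ) (i : Fin D) (x : Tup q D) :
    wB iv s i x = (wgl q iv s i (ext x) : ℕ) := rfl

end tuples

end Vale.Agent.P338.R3.H955
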