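import Vale.Agent.P338.R3.H955.Inv
import Vale.Agent.P338.R3.H955.CrtPT
import Vale.Agent.P338.R3.H501.Rad2PT

/-!
P338-D, module CRT (6): the concrete radices `sR d` with the inverses `invR d`.
-/

namespace Vale.Agent.P338.R3.H955

open Vale.Agent.Lib.PolyTime
open Vale.Agent.P338.R3.H501.Rad

instance (d k : ℕ) : NeZero (sR d k) := ⟨(sR_pos d k).ne'⟩

theorem hiv_sR {d : ℕ} (hd : 1 ≤ d) (i k : ℕ) (hi : i < d) (hk : k < i) :
    (sR d k : ZMod (sR d i)) * (invR d k i : ZMod (sR d i)) = 1 :=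
  invR_spec hd (by omega) hi (by omega)

theorem up_sR (d : ℕ) : up (sR d) 0 d = NR d := by
  unfold NR
  have : ∀ n, up (sR d) 0 n = ∏ j ∈ Finset.range n, sR d j := by
    intro n
    induction n with
    | zero => simp [up]
    | succ n ih => rw [up_succ, ih, zero_add, Finset.prod_range_succ]
  exact this d

/-- the index theorem for the concrete radices -/
theorem undo_theta_sR {d s t : ℕ} (hd : 1 ≤ d) (hs : 0 < s) (hD : d ≤ s * (t + 1)) {j : ℕ}
    (hj : j < NR d) :
    undoA (invR d) s (s - 1) (undoB (invR d) s t (thetaT (sR d) (invR d) d j)) =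
      digT (sR d) d j :=
  undo_theta hs hD (fun i k hi hk => hiv_sR hd i k hi hk) (by rw [up_sR]; exact hj)

variable {A : Set Word} {α : Type*} [Enc α]

/-- radices as a family -/
theorem pt_sR_fam {d : α → ℕ} (hd : PT A d) (hb : PBd d) :
    PT A (fun p : α × ℕ => sR (d p.1) p.2) :=
  pt_sR (hd.comp PT.fst') (PBd.comp hb (PT.fst' (A := A))) PT.snd'

/-- inverses as a family -/
theorem pt_invR_fam {d : α → ℕ} (hd : PT A d) (hb : PBd d) :
    PT A (fun p : α × ℕ × ℕ => invR (d p.1) p.2.1 p.2.2) :=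
  pt_invR (hd.comp PT.fst') (PBd.comp hb (PT.fst' (A := A))) PT.snd'.fst PT.snd'.snd

theorem pt_wloc_sR {d s i : α → ℕ} {a : α → ℕ → ℕ} (hd : PT A d) (hb : PBd d) (hs : PT A s)
    (hi : PT A i) (hib : PBd i) (ha : PT A (fun p : α × ℕ => a p.1 p.2)) :
    PT A (fun x => wloc (sR (d x)) (invR (d x)) (s x) (i x) (a x)) :=
  pt_wloc (q := fun x => sR (d x)) (iv := fun x => invR (d x)) (pt_sR_fam hd hb)
    (pt_invR_fam hd hb) hs hi hib ha

theorem pt_wgl_sR {d s i : α → ℕ} {y : α → ℕ → ℕ} (hd : PT A d) (hb : PBd d) (hs : PT A s)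
    (hi : PT A i) (hib : PBd i) (hy : PT A (fun p : α × ℕ => y p.1 p.2)) :
    PT A (fun x => wgl (sR (d x)) (invR (d x)) (s x) (i x) (y x)) :=
  pt_wgl (q := fun x => sR (d x)) (iv := fun x => invR (d x)) (pt_sR_fam hd hb)
    (fun x k => sR_pos (d x) k) (pt_invR_fam hd hb) hs hi hib hy

end Vale.Agent.P338.R3.H955
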