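import Vale.Agent.P338.R3.H955.Pipe

/-!
P338-D, module CRT (4): the inverse re-indexing (residue coordinates to mixed radix digits).
-/

namespace Vale.Agent.P338.R3.H955

open Finset

set_option linter.unusedSectionVars false

section tuples

variable {q : ℕ → ℕ} [∀ k, NeZero (q k)] {D : ℕ}

/-- apply a shift in the digits of `l` -/
def redo (l : List (Fin D)) (w : ∀ i : Fin D, Tup q D → ZMod (q i)) (x : Tup q D) : Tup q D :=
  fun i => if i ∈ l then x i + w i x else x i

lemma redo_undo {l : List (Fin D)} {w : ∀ i : Fin D, Tup q D → ZMod (q i)} (hw : Free l w)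
    (x : Tup q D) : redo l w (undo l w x) = x := by
  funext i
  unfold redo
  split_ifs with h
  · have h1 : w i (undo l w x) = w i x := hw i h _ _ fun j hj => by simp [undo, hj]
    rw [h1]
    simp [undo, h]
  · simp [undo, h]

/-- apply the shifts of the positions; the map composed last is the one of position `1` -/
def redoA (iv : ℕ → ℕ → ℕ) (s : ℕ) : ℕ → Tup q D → Tup q D
  | 0, x => x
  | n + 1, x => redoA iv s n (redo (posL s D (n + 1)) (wA iv s) x)

/-- apply the shifts of the groups -/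
def redoB (iv : ℕ → ℕ → ℕ) (s : ℕ) : ℕ → Tup q D → Tup q D
  | 0, x => x
  | n + 1, x => redoB iv s n (redo (grpL s D (n + 1)) (wB iv s) x)

lemma redoA_undoA (iv : ℕ → ℕ → ℕ) (s n : ℕ) (x : Tup q D) :
    redoA iv s n (undoA iv s n x) = x := by
  induction n with
  | zero => rfl
  | succ n ih => rw [undoA, redoA, redo_undo (free_wA iv _), ih]

lemma redoB_undoB (iv : ℕ → ℕ → ℕ) {s : ℕ} (hs : 0 < s) (n : ℕ) (x : Tup q D) :
    redoB iv s n (undoB iv s n x) = x := by
  induction n with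
  | zero => rfl
  | succ n ih => rw [undoB, redoB, redo_undo (free_wB iv hs _), ih]

/-- the shifts map the digits to the residue coordinates -/
theorem redo_digits {iv : ℕ → ℕ → ℕ} {s t : ℕ} (hs : 0 < s) (hD : D ≤ s * (t + 1))
    (hiv : ∀ i k, i < D → k < i → (q k : ZMod (q i)) * (iv k i : ZMod (q i)) = 1)
    {j : ℕ} (hj : j < up q 0 D) :
    redoB iv s t (redoA iv s (s - 1) (digT q D j)) = thetaT q iv D j := by
  rw [← undo_theta hs hD hiv hj, redoA_undoA, redoB_undoB iv hs]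

end tuples

section compose

variable {q : ℕ → ℕ} [∀ k, NeZero (q k)] {D : ℕ}
variable {A : Fin D → Type*} [∀ i, Fintype (A i)] [∀ i, DecidableEq (A i)]
variable {R M : Type*} [CommRing R] [AddCommGroup M] [Module R M]

/-- the shears of the positions `1, 2, ..., n` (in this order) -/
def arrA' (pr : ∀ i : Fin D, A i → ZMod (q i)) (K K' : ∀ i, A i → A i → R)
    (φ : ∀ i : Fin D, ZMod (q i) → A i → R) (iv : ℕ → ℕ → ℕ) (s : ℕ) :
    ℕ → ((∀ i, A i) → M) → ((∀ i, A i) → M)
  | 0, f => f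
  | n + 1, f => stepW pr K K' φ (posL s D (n + 1)) (wA iv s) (arrA' pr K K' φ iv s n f)

/-- the shears of the groups `1, 2, ..., n` (in this order) -/
def arrB' (pr : ∀ i : Fin D, A i → ZMod (q i)) (K K' : ∀ i, A i → A i → R)
    (φ : ∀ i : Fin D, ZMod (q i) → A i → R) (iv : ℕ → ℕ → ℕ) (s : ℕ) :
    ℕ → ((∀ i, A i) → M) → ((∀ i, A i) → M)
  | 0, f => f
  | n + 1, f => stepW pr K K' φ (grpL s D (n + 1)) (wB iv s) (arrB' pr K K' φ iv s n f)

/-- generalised index: positions -/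
def redoXA (pr : ∀ i : Fin D, A i → ZMod (q i)) (σ : ∀ i : Fin D, ZMod (q i) → A i → A i)
    (iv : ℕ → ℕ → ℕ) (s : ℕ) : ℕ → (∀ i, A i) → (∀ i, A i)
  | 0, x => x
  | n + 1, x => redoXA pr σ iv s n (undoX pr σ (posL s D (n + 1)) (wA iv s) x)

/-- generalised index: groups -/
def redoXB (pr : ∀ i : Fin D, A i → ZMod (q i)) (σ : ∀ i : Fin D, ZMod (q i) → A i → A i)
    (iv : ℕ → ℕ → ℕ) (s : ℕ) : ℕ → (∀ i, A i) → (∀ i, A i)
  | 0, x => x
  | n + 1, x => redoXB pr σ iv s n (undoX pr σ (grpL s D (n + 1)) (wB iv s) x)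

lemma arrA'_eq {pr : ∀ i : Fin D, A i → ZMod (q i)} {σ : ∀ i : Fin D, ZMod (q i) → A i → A i}
    {K K' : ∀ i, A i → A i → R} {φ : ∀ i : Fin D, ZMod (q i) → A i → R} {r : Fin D → R}
    (hK : ∀ i v a b, ∑ c, K' i a c * (φ i v c * K i c b) = if b = σ i v a then r i else 0)
    (iv : ℕ → ℕ → ℕ) (s n : ℕ) (f : (∀ i, A i) → M) :
    arrA' pr K K' φ iv s n f = scA r s n • fun x => f (redoXA pr σ iv s n x) := by
  induction n with
  | zero => simp [arrA', scA, redoXA]
  | succ n ih =>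
    rw [arrA', ih, stepW_smul, stepW_eq hK (nodup_posL s _) (free_wA iv _), smul_smul, scA,
      mul_comm]
    rfl

lemma arrB'_eq {pr : ∀ i : Fin D, A i → ZMod (q i)} {σ : ∀ i : Fin D, ZMod (q i) → A i → A i}
    {K K' : ∀ i, A i → A i → R} {φ : ∀ i : Fin D, ZMod (q i) → A i → R} {r : Fin D → R}
    (hK : ∀ i v a b, ∑ c, K' i a c * (φ i v c * K i c b) = if b = σ i v a then r i else 0)
    (iv : ℕ → ℕ → ℕ) {s : ℕ} (hs : 0 < s) (n : ℕ) (f : (∀ i, A i) → M) :
    arrB' pr K K' φ iv s n f = scB r s n • fun x => f (redoXB pr σ iv s n x) := by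
  induction n with
  | zero => simp [arrB', scB, redoXB]
  | succ n ih =>
    rw [arrB', ih, stepW_smul, stepW_eq hK (nodup_grpL s _) (free_wB iv hs _), smul_smul, scB,
      mul_comm]
    rfl

lemma dgt_undoX_add {pr : ∀ i : Fin D, A i → ZMod (q i)}
    {σ : ∀ i : Fin D, ZMod (q i) → A i → A i} (hσ : ∀ i v a, pr i (σ i v a) = pr i a + v)
    (l : List (Fin D)) (w : ∀ i : Fin D, Tup q D → ZMod (q i)) (x : ∀ i, A i) :
    dgt pr (undoX pr σ l w x) = redo l w (dgt pr x) := by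
  funext i
  simp only [dgt, undoX, redo]
  split_ifs
  · rw [hσ]
  · rfl

lemma dgt_redoXA {pr : ∀ i : Fin D, A i → ZMod (q i)}
    {σ : ∀ i : Fin D, ZMod (q i) → A i → A i} (hσ : ∀ i v a, pr i (σ i v a) = pr i a + v)
    (iv : ℕ → ℕ → ℕ) (s n : ℕ) (x : ∀ i, A i) :
    dgt pr (redoXA pr σ iv s n x) = redoA iv s n (dgt pr x) := by
  induction n generalizing x with
  | zero => rfl
  | succ n ih => rw [redoXA, ih, dgt_undoX_add hσ, redoA]

lemma dgt_redoXB {pr : ∀ i : Fin D, A i → ZMod (q i)}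
    {σ : ∀ i : Fin D, ZMod (q i) → A i → A i} (hσ : ∀ i v a, pr i (σ i v a) = pr i a + v)
    (iv : ℕ → ℕ → ℕ) (s n : ℕ) (x : ∀ i, A i) :
    dgt pr (redoXB pr σ iv s n x) = redoB iv s n (dgt pr x) := by
  induction n generalizing x with
  | zero => rfl
  | succ n ih => rw [redoXB, ih, dgt_undoX_add hσ, redoB]

end compose

section instances

variable {q : ℕ → ℕ} [∀ k, NeZero (q k)] {D : ℕ}
variable {R M : Type*} [CommRing R] [AddCommGroup M] [Module R M]

/-- positive shift of the digit, register kept -/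
def sgU' (i : Fin D) (v : ZMod (q i)) (a : Bool × ZMod (q i)) : Bool × ZMod (q i) :=
  (a.1, a.2 + v)

lemma undoX_fst' (l : List (Fin D)) (w : ∀ i : Fin D, Tup q D → ZMod (q i))
    (x : ∀ i : Fin D, Bool × ZMod (q i)) (i : Fin D) :
    (undoX prU sgU' l w x i).1 = (x i).1 := by
  unfold undoX
  split_ifs <;> rfl

lemma redoXA_fst (iv : ℕ → ℕ → ℕ) (s n : ℕ) (x : ∀ i : Fin D, Bool × ZMod (q i)) (i : Fin D) :
    (redoXA prU sgU' iv s n x i).1 = (x i).1 := by
  induction n generalizing x with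
  | zero => rfl
  | succ n ih => rw [redoXA, ih, undoX_fst']

lemma redoXB_fst (iv : ℕ → ℕ → ℕ) (s n : ℕ) (x : ∀ i : Fin D, Bool × ZMod (q i)) (i : Fin D) :
    (redoXB prU sgU' iv s n x i).1 = (x i).1 := by
  induction n generalizing x with
  | zero => rfl
  | succ n ih => rw [redoXB, ih, undoX_fst']

/-- INVERSE CRT BY SHEARS, two registers: groups `1, ..., t`, then positions `1, ..., s-1`,
phases with the opposite sign. -/
theorem crt_U_inv {ψ : ∀ i : Fin D, AddChar (ZMod (q i)) R} (h : ∀ i, Orth (ψ i))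
    {g g' : Fin D → R} (hg : ∀ i, g i * g' i * (q i : ℕ) = 1) {iv : ℕ → ℕ → ℕ} {s t : ℕ}
    (hs : 0 < s) (hD : D ≤ s * (t + 1))
    (hiv : ∀ i k, i < D → k < i → (q k : ZMod (q i)) * (iv k i : ZMod (q i)) = 1)
    (f : (∀ i : Fin D, Bool × ZMod (q i)) → M) (ρ : Fin D → Bool) {j : ℕ} (hj : j < up q 0 D) :
    arrA' prU (fun i => kU (ψ i) (g i) (g' i)) (fun i => kU (ψ i) (g i) (g' i))
      (fun i v => phU (ψ i) (-v)) iv s (s - 1)
      (arrB' prU (fun i => kU (ψ i) (g i) (g' i)) (fun i => kU (ψ i) (g i) (g' i))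
        (fun i v => phU (ψ i) (-v)) iv s t f) (fun i => (ρ i, digT q D j i)) =
      (scA (fun _ : Fin D => (-1 : R)) s (s - 1) * scB (fun _ : Fin D => (-1 : R)) s t) •
        f (fun i => (ρ i, thetaT q iv D j i)) := by
  have hK : ∀ (i : Fin D) (v : ZMod (q i)) (a b : Bool × ZMod (q i)),
      ∑ c, kU (ψ i) (g i) (g' i) a c * (phU (ψ i) (-v) c * kU (ψ i) (g i) (g' i) c b) =
        if b = sgU' i v a then (fun _ : Fin D => (-1 : R)) i else 0 := by
    intro i v a b
    have := U_kernel (h i) (hg i) (-v) a b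
    rw [sub_neg_eq_add] at this
    exact this
  have hσ : ∀ (i : Fin D) (v : ZMod (q i)) (a : Bool × ZMod (q i)),
      prU i (sgU' i v a) = prU i a + v := fun _ _ _ => rfl
  rw [arrB'_eq (σ := sgU') (r := fun _ => -1) hK iv hs,
    arrA'_eq (σ := sgU') (r := fun _ => -1) hK]
  simp only [Pi.smul_apply, smul_smul]
  congr 2
  funext i
  apply Prod.ext
  · rw [redoXB_fst, redoXA_fst]
  · have h1 := dgt_redoXB (pr := prU) (σ := sgU') hσ iv s t
      (redoXA prU sgU' iv s (s - 1) (fun i => (ρ i, digT q D j i)))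
    rw [dgt_redoXA (pr := prU) (σ := sgU') hσ] at h1
    have h2 : dgt prU (fun i : Fin D => (ρ i, digT q D j i)) = digT q D j := rfl
    rw [h2, redo_digits hs hD hiv hj] at h1
    exact congrFun h1 i

end instances

end Vale.Agent.P338.R3.H955
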