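import Vale.Agent.P338.R3.H955.Inv

/-!
P338-D, module CRT (9): the residue coordinates as an additive equivalence
`ZMod N ≃+ ∏ i, ZMod (q i)`, and the digits as a bijection.
-/

namespace Vale.Agent.P338.R3.H955

open Finset

set_option linter.unusedSectionVars false

variable {q : ℕ → ℕ} [∀ k, NeZero (q k)] {D : ℕ}

lemma up_eq_prod (q : ℕ → ℕ) (D : ℕ) : up q 0 D = ∏ i : Fin D, q i := by
  induction D with
  | zero => rfl
  | succ D ih =>
    rw [up_succ, ih, Fin.prod_univ_castSucc, zero_add]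
    rfl

instance neZero_up (s D : ℕ) : NeZero (up q s D) :=
  ⟨(up_pos fun k _ _ => Nat.pos_of_ne_zero (NeZero.ne (q k))).ne'⟩

lemma dvd_up {i : ℕ} (hi : i < D) : q i ∣ up q 0 D := by
  rw [up_eq_prod]
  exact Finset.dvd_prod_of_mem (fun i : Fin D => q i) (Finset.mem_univ (⟨i, hi⟩ : Fin D))

lemma digT_inj {j k : ℕ} (hj : j < up q 0 D) (hk : k < up q 0 D)
    (h : digT q D j = digT q D k) : j = k := by
  have h1 : ∀ i, i < D → dig q j i = dig q k i := by
    intro i hi
    have h2 := congrFun h ⟨i, hi⟩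
    unfold digT at h2
    have h3 := congrArg ZMod.val h2
    rwa [ZMod.val_cast_of_lt dig_lt, ZMod.val_cast_of_lt dig_lt] at h3
  have h2 := mv_dig q j D
  have h3 := mv_dig q k D
  rw [Nat.mod_eq_of_lt hj] at h2
  rw [Nat.mod_eq_of_lt hk] at h3
  rw [← h2, ← h3]
  exact mv_congr fun i _ hi => h1 i (by omega)

lemma digT_surj (z : Tup q D) : ∃ j, j < up q 0 D ∧ digT q D j = z := by
  refine ⟨mv q (ext z) 0 D, mv_lt fun k _ hk => ?_, ?_⟩
  · unfold ext
    rw [dif_pos (by omega)]
    exact ZMod.val_lt _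
  · funext i
    unfold digT
    rw [dig_mv (fun k hk => by
      unfold ext
      rw [dif_pos hk]
      exact ZMod.val_lt _) i.2]
    unfold ext
    rw [dif_pos i.2]
    exact ZMod.natCast_zmod_val _

/-- the residue coordinates as a homomorphism -/
def thetaHom (q : ℕ → ℕ) [∀ k, NeZero (q k)] (iv : ℕ → ℕ → ℕ) (D : ℕ) :
    ZMod (up q 0 D) →+ Tup q D where
  toFun z i := (ivp iv i 0 i : ZMod (q i)) * ZMod.castHom (dvd_up i.2) (ZMod (q i)) z
  map_zero' := by
    funext i
    simp
  map_add' x y := by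
    funext i
    simp only [map_add, Pi.add_apply, mul_add]

lemma thetaHom_cast (iv : ℕ → ℕ → ℕ) (j : ℕ) :
    thetaHom q iv D (j : ZMod (up q 0 D)) = thetaT q iv D j := by
  funext i
  change (ivp iv i 0 i : ZMod (q i)) * ZMod.castHom (dvd_up i.2) (ZMod (q i)) (j : ZMod _) = _
  rw [map_natCast]
  unfold thetaT theta
  rw [cast_mod_self]
  push_cast
  rfl

lemma thetaHom_inj {iv : ℕ → ℕ → ℕ}
    (hiv : ∀ i k, i < D → k < i → (q k : ZMod (q i)) * (iv k i : ZMod (q i)) = 1) :
    Function.Injective (thetaHom q iv D) := by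
  intro x y hxy
  rw [← ZMod.natCast_zmod_val x, ← ZMod.natCast_zmod_val y, thetaHom_cast, thetaHom_cast] at hxy
  have h1 := undo_theta (s := 1) (t := D) Nat.one_pos (by omega) hiv (ZMod.val_lt x)
  have h2 := undo_theta (s := 1) (t := D) Nat.one_pos (by omega) hiv (ZMod.val_lt y)
  rw [hxy, h2] at h1
  exact ZMod.val_injective _ (digT_inj (ZMod.val_lt x) (ZMod.val_lt y) h1.symm)

/-- RESIDUE COORDINATES: additive equivalence -/
noncomputable def thetaE (q : ℕ → ℕ) [∀ k, NeZero (q k)] (iv : ℕ → ℕ → ℕ) (D : ℕ)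
    (hiv : ∀ i k, i < D → k < i → (q k : ZMod (q i)) * (iv k i : ZMod (q i)) = 1) :
    ZMod (up q 0 D) ≃+ Tup q D :=
  AddEquiv.ofBijective (thetaHom q iv D) (by
    rw [Fintype.bijective_iff_injective_and_card]
    refine ⟨thetaHom_inj hiv, ?_⟩
    rw [ZMod.card, Fintype.card_pi, up_eq_prod]
    exact Finset.prod_congr rfl fun i _ => (ZMod.card (q i)).symm)

section equiv

variable {iv : ℕ → ℕ → ℕ}
  (hiv : ∀ i k, i < D → k < i → (q k : ZMod (q i)) * (iv k i : ZMod (q i)) = 1)

lemma thetaE_cast (j : ℕ) : thetaE q iv D hiv (j : ZMod (up q 0 D)) = thetaT q iv D j :=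
  thetaHom_cast iv j

lemma thetaE_eq (z : ZMod (up q 0 D)) : thetaE q iv D hiv z = thetaT q iv D z.val := by
  conv_lhs => rw [← ZMod.natCast_zmod_val z]
  exact thetaE_cast hiv _

lemma thetaT_add (j k : ℕ) :
    thetaT q iv D (j + k) = thetaT q iv D j + thetaT q iv D k := by
  rw [← thetaHom_cast, Nat.cast_add, map_add, thetaHom_cast, thetaHom_cast]

lemma thetaT_mod (j : ℕ) : thetaT q iv D (j % up q 0 D) = thetaT q iv D j := by
  rw [← thetaHom_cast, ← thetaHom_cast, cast_mod_self]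

include hiv in
/-- sums over residue tuples -/
theorem sum_theta {N : Type*} [AddCommMonoid N] (f : Tup q D → N) :
    ∑ z, f z = ∑ k ∈ range (up q 0 D), f (thetaT q iv D k) := by
  rw [← Equiv.sum_comp (thetaE q iv D hiv).toEquiv f]
  have h1 : ∀ z : ZMod (up q 0 D), f ((thetaE q iv D hiv).toEquiv z) =
      f (thetaT q iv D z.val) := fun z => by
    rw [← thetaE_eq hiv]
    rfl
  rw [Finset.sum_congr rfl fun z _ => h1 z]
  refine Finset.sum_bij' (fun z _ => z.val) (fun k _ => (k : ZMod (up q 0 D)))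
    (fun z _ => mem_range.2 (ZMod.val_lt z)) (fun k _ => mem_univ _)
    (fun z _ => ZMod.natCast_zmod_val z) (fun k hk => ZMod.val_cast_of_lt (mem_range.1 hk))
    fun z _ => rfl

include hiv in
/-- the tensor convolution in residue coordinates is the cyclic convolution -/
theorem conv_theta {R : Type*} [NonUnitalNonAssocSemiring R] (f g : Tup q D → R) (j : ℕ) :
    ∑ z, f z * g (thetaT q iv D j - z) =
      ∑ k ∈ range (up q 0 D), f (thetaT q iv D k) *
        g (thetaT q iv D ((j + (up q 0 D - k)) % up q 0 D)) := by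
  rw [sum_theta hiv]
  refine Finset.sum_congr rfl fun k hk => ?_
  congr 2
  rw [thetaT_mod]
  have h1 : k ≤ up q 0 D := (mem_range.1 hk).le
  have h2 : thetaT q iv D (j + (up q 0 D - k)) + thetaT q iv D k = thetaT q iv D j := by
    rw [← thetaT_add, add_assoc, Nat.sub_add_cancel h1, ← thetaT_mod, Nat.add_mod_right,
      thetaT_mod]
  rw [← h2, add_sub_cancel_right]

end equiv

end Vale.Agent.P338.R3.H955
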