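import Vale.Agent.P338.R3.H955.StageRel
import Vale.Agent.P338.R3.H955.Theta
import Vale.Agent.P338.R3.H715.WAll

/-!
P338-D, module CRT (10): the whole middle part of the schedule (CRT stages, `W` on all digits,
pointwise product, correction, `W`, inverse CRT stages) is the cyclic convolution modulo `N` for
every value of the selectors.
-/

namespace Vale.Agent.P338.R3.H955

open Finset
open Vale.Agent.P338.R3.H282
open Vale.Agent.P338.R3.H715 (cW chW opp chW_add lock_Wk_apply lock_Wk_all_sq cW_ne_zero)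

set_option linter.unusedSectionVars false

/-! ### convolution on tuples -/

section conv

variable {q : ℕ → ℕ} [∀ k, NeZero (q k)] {D : ℕ}

/-- registers of a tuple -/
def rgs (x : TA q D) : Fin D → Bool := fun i => (x i).1

/-- residues of a tuple -/
def rsd (x : TA q D) : Tup q D := fun i => (x i).2

lemma mkT_rgs (x : TA q D) : mkT (rgs x) (rsd x) = x := rfl

/-- convolution of the residues, registers kept -/
noncomputable def conv (f g : TA q D → ℂ) (x : TA q D) : ℂ :=
  ∑ z : Tup q D, f (mkT (rgs x) z) * g (mkT (rgs x) (rsd x - z))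

/-- the correction factor -/
noncomputable def cor (x : TA q D) : ℂ := ∏ i, if (x i).1 then (1 : ℂ) else -(q i : ℂ)

lemma cor_mul_cW (x : TA q D) : cor x * (cW x * cW x) = cW x := by
  unfold cor cW
  rw [← Finset.prod_mul_distrib, ← Finset.prod_mul_distrib]
  refine Finset.prod_congr rfl fun i _ => ?_
  have : (q i : ℂ) ≠ 0 := by exact_mod_cast NeZero.ne (q i)
  split_ifs
  · ring
  · field_simp

/-- `W` on all digits -/
noncomputable def Wall (f : TA q D → ℂ) : TA q D → ℂ := lock (List.finRange D) (Wk q) f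

lemma Wall_apply (f : TA q D → ℂ) (x : TA q D) :
    Wall f x = cW x * ∑ y, chW x y * f (opp x y) := lock_Wk_apply f x

lemma Wall_Wall (f : TA q D → ℂ) : Wall (Wall f) = (-1 : ℂ) ^ D • f := lock_Wk_all_sq f

/-- convolution theorem for `W` -/
theorem Wall_conv (f g : TA q D → ℂ) (x : TA q D) :
    cor x * (Wall f x * Wall g x) = Wall (conv f g) x := by
  rw [Wall_apply, Wall_apply, Wall_apply]
  have h1 : (∑ y, chW x y * f (opp x y)) * (∑ y, chW x y * g (opp x y)) =
      ∑ y, chW x y * conv f g (opp x y) := by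
    rw [Finset.sum_mul_sum]
    have h2 : ∀ y : Tup q D, ∑ z : Tup q D, chW x y * f (opp x y) * (chW x z * g (opp x z)) =
        ∑ z : Tup q D, chW x z * (f (opp x y) * g (opp x (z - y))) := by
      intro y
      rw [← Equiv.sum_comp (Equiv.subRight y)
        fun z : Tup q D => chW x y * f (opp x y) * (chW x z * g (opp x z))]
      refine Finset.sum_congr rfl fun z _ => ?_
      have h3 : chW x z = chW x y * chW x (z - y) := by
        rw [← chW_add, add_sub_cancel]
      simp only [Equiv.subRight_apply]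
      rw [h3]
      ring
    rw [Finset.sum_congr rfl fun y _ => h2 y, Finset.sum_comm]
    refine Finset.sum_congr rfl fun z _ => ?_
    rw [← Finset.mul_sum]
    rfl
  calc cor x * (cW x * (∑ y, chW x y * f (opp x y)) * (cW x * ∑ y, chW x y * g (opp x y)))
      = (cor x * (cW x * cW x)) *
        ((∑ y, chW x y * f (opp x y)) * (∑ y, chW x y * g (opp x y))) := by ring
    _ = _ := by rw [cor_mul_cW, h1]

end conv

/-! ### the middle part on padded arrays -/

section mid

variable {δ : Type} {G : Geo} [∀ k, NeZero (G.q k)] {hq : ∀ i : Fin G.d, G.q i ≤ 2 ^ G.a}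
variable {prog : List (Ly δ)} {lv : ℕ → δ → ℕ → ℂ}

theorem rel_Wall (hp : ∀ l ∈ prog, l.ok G.a)
    (hW : ∀ i : Fin G.d, Twin (em hq) i (pmat G.a (lv (G.q i)) prog) (Wk G.q i))
    {F : ℕ → ℂ} {g : ℕ → TA G.q G.d → ℂ} (h : Rel hq F g) :
    Rel hq (exs G lv (G.W prog (List.range G.d)) F) fun e => Wall (g e) := by
  rw [← List.map_coe_finRange_eq_range]
  exact rel_W hp hW (List.nodup_finRange G.d) h

theorem rel_mul {F F' : ℕ → ℂ} {g g' : ℕ → TA G.q G.d → ℂ} (h : Rel hq F g)
    (h' : Rel hq F' g') : Rel hq (fun u => F u * F' u) fun e y => g e y * g' e y := by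
  intro e he
  funext p
  have h1 := congrFun (h e he) p
  have h2 := congrFun (h' e he) p
  unfold toC at h1 h2
  change F (enc G p e) * F' (enc G p e) =
    Vale.Agent.P338.R3.H282.ext (em hq) (fun y => g e y * g' e y) p
  rw [h1, h2]
  by_cases hx : ∀ i, p i ∈ Set.range (em hq i)
  · choose y hy using hx
    obtain rfl : p = emb (em hq) y := funext fun i => (hy i).symm
    rw [ext_emb em_injective, ext_emb em_injective, ext_emb em_injective]
  · push Not at hx
    obtain ⟨i, hi⟩ := hx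
    rw [ext_of_not _ hi, ext_of_not _ hi, ext_of_not _ hi, mul_zero]

lemma prod_map_range (n : ℕ) (f : ℕ → ℂ) :
    ((List.range n).map f).prod = ∏ i : Fin n, f i := by
  rw [← List.map_coe_finRange_eq_range, List.map_map, ← List.ofFn_eq_map, List.prod_ofFn]
  rfl

lemma val_corr (lv : ℕ → δ → ℕ → ℂ) (y : TA G.q G.d) (e : ℕ) :
    G.val lv .corr (enc G (emb (em hq) y) e) = (-1) ^ G.d / 2 ^ G.s * cor y := by
  change (-1) ^ G.d / 2 ^ G.s * ((List.range G.d).map fun i =>
    if G.rb (enc G (emb (em hq) y) e) i then (1 : ℂ) else -(G.q i : ℂ)).prod = _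
  rw [prod_map_range]
  unfold cor
  congr 2
  funext i
  have h1 := crd_enc (hq := hq) y e
  have h2 : G.rb (enc G (emb (em hq) y) e) i = (y i).1 := by
    have := congrFun h1 i
    unfold crd at this
    exact congrArg Prod.fst this
  rw [h2]

/-- THE MIDDLE PART, on padded arrays -/
theorem rel_mid (hs : 0 < G.gs) (hp : ∀ l ∈ prog, l.ok G.a)
    (hW : ∀ i : Fin G.d, Twin (em hq) i (pmat G.a (lv (G.q i)) prog) (Wk G.q i))
    {FA FB : ℕ → ℂ} {gA gB : ℕ → TA G.q G.d → ℂ} (hA : Rel hq FA gA) (hB : Rel hq FB gB) :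
    Rel hq (exs G lv (.dg .corr :: (G.W prog (List.range G.d) ++ midB G prog))
      (fun u => exs G lv (midF G prog ++ G.W prog (List.range G.d)) FA u *
        exs G lv (midF G prog ++ G.W prog (List.range G.d)) FB u))
      fun e y => 1 / 2 ^ G.s *
        conv (fun x => gA e (Geo.toDig G x)) (fun x => gB e (Geo.toDig G x)) (Geo.toRes G y) := by
  have h1 := rel_Wall hp hW (rel_midF hs hp hW hA)
  have h2 := rel_Wall hp hW (rel_midF hs hp hW hB)
  have h3 := rel_dg (lv := lv) (c := .corr) (rel_mul h1 h2) fun e _ y => val_corr lv y e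
  have h4 := rel_midB hs hp hW (rel_Wall hp hW h3)
  rw [exs_cons, exs_append, exs_append, exs_append]
  have h5 : (fun e y => 1 / 2 ^ G.s *
        conv (fun x => gA e (Geo.toDig G x)) (fun x => gB e (Geo.toDig G x)) (Geo.toRes G y)) =
      fun e y => Wall (gdiag (fun y => (-1) ^ G.d / 2 ^ G.s * cor y) fun y =>
        Wall (fun x => gA e (Geo.toDig G x)) y * Wall (fun x => gB e (Geo.toDig G x)) y)
        (Geo.toRes G y) := by
    funext e y
    have h6 : (gdiag (fun y : TA G.q G.d => (-1 : ℂ) ^ G.d / 2 ^ G.s * cor y) fun y =>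
        Wall (fun x => gA e (Geo.toDig G x)) y * Wall (fun x => gB e (Geo.toDig G x)) y) =
        ((-1 : ℂ) ^ G.d / 2 ^ G.s) •
          Wall (conv (fun x => gA e (Geo.toDig G x)) fun x => gB e (Geo.toDig G x)) := by
      funext y
      rw [gdiag_apply, Pi.smul_apply, ← Wall_conv, smul_eq_mul, smul_eq_mul, mul_assoc]
    rw [h6]
    unfold Wall
    rw [map_smul]
    have h7 := Wall_Wall (conv (fun x => gA e (Geo.toDig G x)) fun x => gB e (Geo.toDig G x))
    unfold Wall at h7
    rw [h7, smul_smul, Pi.smul_apply, smul_eq_mul]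
    congr 1
    rw [div_mul_eq_mul_div, ← mul_pow, neg_one_mul, neg_neg, one_pow]
  rw [h5]
  exact h4

/-! ### flat form -/

lemma sv_enc_congr {y y' : TA G.q G.d} (h : rgs y = rgs y') (e : ℕ) :
    G.sv (enc G (emb (em hq) y) e) = G.sv (enc G (emb (em hq) y') e) := by
  rw [enc_div, enc_div]
  congr 1
  apply mv_congr
  intro k _ hk
  have hk' : k < G.d := by omega
  have h1 : pn G (emb (em hq) y) k = em hq ⟨k, hk'⟩ (y ⟨k, hk'⟩) := by simp [pn, emb, hk']
  have h2 : pn G (emb (em hq) y') k = em hq ⟨k, hk'⟩ (y' ⟨k, hk'⟩) := by simp [pn, emb, hk']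
  rw [h1, h2, em_div, em_div]
  have h3 : (y ⟨k, hk'⟩).1 = (y' ⟨k, hk'⟩).1 := congrFun h ⟨k, hk'⟩
  rw [h3]

lemma sv_enc_crd {u : ℕ} (hv : G.valid u = true) {ρ : Fin G.d → Bool}
    (hρ : ρ = fun i : Fin G.d => G.rb u i) (z : Tup G.q G.d) :
    G.sv (enc G (emb (em hq) (mkT ρ z)) (G.sv u / 2 ^ G.d)) = G.sv u := by
  have h1 : G.sv (enc G (emb (em hq) (crd G u)) (G.sv u / 2 ^ G.d)) = G.sv u := by
    rw [emb_crd hv, enc_tup]
  refine Eq.trans (sv_enc_congr ?_ _) h1
  rw [hρ]
  rfl

/-- digit value of a tuple -/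
noncomputable def djT (y : TA G.q G.d) : ℕ := mv G.q (ext (rsd y)) 0 G.d

lemma djT_dig (ρ : Fin G.d → Bool) {j : ℕ} (hj : j < up G.q 0 G.d) :
    djT (mkT ρ (digT G.q G.d j)) = j := by
  unfold djT
  have h1 : mv G.q (ext (rsd (mkT ρ (digT G.q G.d j)))) 0 G.d = mv G.q (dig G.q j) 0 G.d :=
    mv_congr fun k _ hk => ext_digT (by omega)
  rw [h1, mv_dig, Nat.mod_eq_of_lt hj]

lemma djT_crd {u : ℕ} (hv : G.valid u = true) : djT (crd G u) = G.dj u := by
  rw [crd_eq hv, djT_dig _ (dj_lt hv)]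

theorem rel_flat (hds : G.d ≤ G.s) {F : ℕ → ℂ} {A : ℕ → ℕ → ℂ}
    (h : ∀ u < 2 ^ (G.a * G.d + G.s), F u = if G.valid u then A (G.sv u) (G.dj u) else 0) :
    Rel hq F fun e y => A (G.sv (enc G (emb (em hq) y) e)) (djT y) := by
  apply Rel.of_apply hds
  intro u hu
  rw [h u hu]
  split_ifs with hv
  · rw [emb_crd hv, enc_tup, djT_crd hv]
  · rfl

/-- THE MIDDLE PART: cyclic convolution modulo `N` for every value of the selectors -/
theorem middle (hq : ∀ i : Fin G.d, G.q i ≤ 2 ^ G.a) (hds : G.d ≤ G.s) (hs : 0 < G.gs)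
    (hD : G.d ≤ G.gs * (G.t + 1))
    (hiv : ∀ i k, i < G.d → k < i → (G.q k : ZMod (G.q i)) * (G.iv k i : ZMod (G.q i)) = 1)
    (hp : ∀ l ∈ prog, l.ok G.a)
    (hW : ∀ i : Fin G.d, Twin (em hq) i (pmat G.a (lv (G.q i)) prog) (Wk G.q i))
    {FA FB : ℕ → ℂ} {A B : ℕ → ℕ → ℂ}
    (hA : ∀ u < 2 ^ (G.a * G.d + G.s), FA u = if G.valid u then A (G.sv u) (G.dj u) else 0)
    (hB : ∀ u < 2 ^ (G.a * G.d + G.s), FB u = if G.valid u then B (G.sv u) (G.dj u) else 0)
    {u : ℕ} (hu : u < 2 ^ (G.a * G.d + G.s)) :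
    exs G lv (.dg .corr :: (G.W prog (List.range G.d) ++ midB G prog))
      (fun u => exs G lv (midF G prog ++ G.W prog (List.range G.d)) FA u *
        exs G lv (midF G prog ++ G.W prog (List.range G.d)) FB u) u =
    if G.valid u then 1 / 2 ^ G.s * ∑ k ∈ range G.N, A (G.sv u) k *
      B (G.sv u) ((G.dj u + (G.N - k)) % G.N) else 0 := by
  rw [(rel_mid hs hp hW (rel_flat hds hA) (rel_flat hds hB)).apply hds hu]
  split_ifs with hv
  · congr 1
    have hj := dj_lt hv
    rw [crd_eq hv, toRes_dig hs hD hiv _ hj]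
    have h0 := conv_theta hiv
      (fun z => A (G.sv (enc G (emb (em hq) (Geo.toDig G (mkT (fun i : Fin G.d => G.rb u i) z)))
        (G.sv u / 2 ^ G.d))) (djT (Geo.toDig G (mkT (fun i : Fin G.d => G.rb u i) z))))
      (fun z => B (G.sv (enc G (emb (em hq) (Geo.toDig G (mkT (fun i : Fin G.d => G.rb u i) z)))
        (G.sv u / 2 ^ G.d))) (djT (Geo.toDig G (mkT (fun i : Fin G.d => G.rb u i) z))))
      (G.dj u)
    refine Eq.trans ?_ (h0.trans ?_)
    · rfl
    refine Finset.sum_congr rfl fun k hk => ?_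
    have hk' := mem_range.1 hk
    have h1 : (G.dj u + (up G.q 0 G.d - k)) % up G.q 0 G.d < up G.q 0 G.d :=
      Nat.mod_lt _ (Nat.pos_of_ne_zero (NeZero.ne _))
    rw [toDig_theta hs hD hiv _ hk', toDig_theta hs hD hiv _ h1, djT_dig _ hk', djT_dig _ h1,
      sv_enc_crd hv rfl, sv_enc_crd hv rfl]
    rfl
  · rfl

end mid

end Vale.Agent.P338.R3.H955
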