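import Mathlib

/-!
P338-D, module CRT (1): lockstep kernel operators on product index sets and index maps of
several coordinates at once.
-/

namespace Vale.Agent.P338.R3.H955

open Finset

set_option linter.unusedSectionVars false

variable {ι : Type*} [DecidableEq ι] {A : ι → Type*} [∀ i, Fintype (A i)] [∀ i, DecidableEq (A i)]
variable {R M : Type*} [CommRing R] [AddCommGroup M] [Module R M]

/-- kernel operator in the coordinate `i` -/
def opK (i : ι) (K : A i → A i → R) (f : (∀ i, A i) → M) : (∀ i, A i) → M :=
  fun x => ∑ a : A i, K (x i) a • f (Function.update x i a)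

/-- multiplication by a function -/
def diag (c : (∀ i, A i) → R) (f : (∀ i, A i) → M) : (∀ i, A i) → M := fun x => c x • f x

/-- does not depend on the coordinate `i` -/
def Indep {α : Type*} (i : ι) (w : (∀ i, A i) → α) : Prop :=
  ∀ x a, w (Function.update x i a) = w x

lemma indep_congr {α : Type*} {w : (∀ i, A i) → α} (l : List ι) (hw : ∀ j ∈ l, Indep j w)
    {x y : ∀ i, A i} (hxy : ∀ i, i ∉ l → x i = y i) : w x = w y := by
  induction l generalizing x y with
  | nil => rw [show x = y from funext fun i => hxy i (by simp)]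
  | cons j l ih =>
    rw [← hw j List.mem_cons_self x (y j)]
    refine ih (fun k hk => hw k (List.mem_cons_of_mem _ hk)) fun i hi => ?_
    by_cases hij : i = j
    · subst hij; simp
    · rw [Function.update_of_ne hij]
      exact hxy i (by simp [hij, hi])

/-- index map in the coordinate `i` with parameter `w` -/
def map1 (i : ι) {W : Type*} (σ : W → A i → A i) (w : (∀ i, A i) → W) (f : (∀ i, A i) → M) :
    (∀ i, A i) → M :=
  fun x => f (Function.update x i (σ (w x) (x i)))

/-- one coordinate: kernel, phase, kernel = index map -/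
theorem map1_eq (i : ι) {W : Type*} {σ : W → A i → A i} {w : (∀ i, A i) → W} (hw : Indep i w)
    {K K' : A i → A i → R} {φ : W → A i → R} {r : A i → R}
    (hK : ∀ v a b, ∑ c, K' a c * (φ v c * K c b) = if b = σ v a then r a else 0)
    (f : (∀ i, A i) → M) :
    opK i K' (diag (fun x => φ (w x) (x i)) (opK i K f)) =
      diag (fun x => r (x i)) (map1 i σ w f) := by
  funext x
  simp only [opK, diag, Function.update_self, Function.update_idem, map1]
  simp only [hw x, Finset.smul_sum, smul_smul]
  rw [Finset.sum_comm]
  have h2 : ∀ b : A i, ∑ a : A i,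
      (K' (x i) a * (φ (w x) a * K a b)) • f (Function.update x i b) =
      (if b = σ (w x) (x i) then r (x i) else 0) • f (Function.update x i b) := by
    intro b
    rw [← Finset.sum_smul, hK]
  rw [Finset.sum_congr rfl fun b _ => h2 b]
  simp [ite_smul]

/-! ### commutation rules -/

lemma opK_diag (i : ι) (K : A i → A i → R) {c : (∀ i, A i) → R} (hc : Indep i c)
    (f : (∀ i, A i) → M) : opK i K (diag c f) = diag c (opK i K f) := by
  funext x
  simp only [opK, diag, Finset.smul_sum, hc x, smul_smul]
  exact Finset.sum_congr rfl fun a _ => by rw [mul_comm]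

lemma opK_smul (i : ι) (K : A i → A i → R) (c : R) (f : (∀ i, A i) → M) :
    opK i K (c • f) = c • opK i K f := by
  funext x
  simp only [opK, Pi.smul_apply, Finset.smul_sum, smul_smul]
  exact Finset.sum_congr rfl fun a _ => by rw [mul_comm]

lemma diag_smul (c : (∀ i, A i) → R) (r : R) (f : (∀ i, A i) → M) :
    diag c (r • f) = r • diag c f := by
  funext x
  simp only [diag, Pi.smul_apply, smul_smul, mul_comm]

lemma diag_diag (c d : (∀ i, A i) → R) (f : (∀ i, A i) → M) :
    diag c (diag d f) = diag (fun x => c x * d x) f := by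
  funext x
  simp only [diag, smul_smul]

lemma diag_comm (c d : (∀ i, A i) → R) (f : (∀ i, A i) → M) :
    diag c (diag d f) = diag d (diag c f) := by
  funext x
  simp only [diag, smul_smul, mul_comm]

lemma opK_comm {i j : ι} (hij : i ≠ j) (K : A i → A i → R) (L : A j → A j → R)
    (f : (∀ i, A i) → M) : opK i K (opK j L f) = opK j L (opK i K f) := by
  funext x
  simp only [opK, Finset.smul_sum, smul_smul, Function.update_of_ne hij,
    Function.update_of_ne hij.symm]
  rw [Finset.sum_comm]
  refine Finset.sum_congr rfl fun a _ => Finset.sum_congr rfl fun b _ => ?_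
  rw [Function.update_comm hij, mul_comm]

lemma map1_opK {i j : ι} (hij : i ≠ j) {W : Type*} {σ : W → A i → A i} {w : (∀ i, A i) → W}
    (hw : Indep j w) (K : A j → A j → R) (f : (∀ i, A i) → M) :
    map1 i σ w (opK j K f) = opK j K (map1 i σ w f) := by
  funext x
  simp only [map1, opK, Function.update_of_ne hij.symm, hw x, Function.update_of_ne hij]
  exact Finset.sum_congr rfl fun a _ => by rw [Function.update_comm hij]

/-! ### several coordinates -/

/-- kernel operators in all coordinates of `l` -/
def opL (K : ∀ i, A i → A i → R) (l : List ι) (f : (∀ i, A i) → M) : (∀ i, A i) → M :=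
  l.foldr (fun i g => opK i (K i) g) f

lemma opL_cons (K : ∀ i, A i → A i → R) (i : ι) (l : List ι) (f : (∀ i, A i) → M) :
    opL K (i :: l) f = opK i (K i) (opL K l f) := rfl

lemma opL_smul (K : ∀ i, A i → A i → R) (l : List ι) (c : R) (f : (∀ i, A i) → M) :
    opL K l (c • f) = c • opL K l f := by
  induction l generalizing f with
  | nil => rfl
  | cons i l ih => rw [opL_cons, opL_cons, ih, opK_smul]

lemma opL_diag {l : List ι} (K : ∀ i, A i → A i → R) {c : (∀ i, A i) → R}
    (hc : ∀ j ∈ l, Indep j c) (f : (∀ i, A i) → M) :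
    opL K l (diag c f) = diag c (opL K l f) := by
  induction l generalizing f with
  | nil => rfl
  | cons i l ih =>
    rw [opL_cons, opL_cons, ih (fun j hj => hc j (List.mem_cons_of_mem _ hj)),
      opK_diag i _ (hc i List.mem_cons_self)]

lemma opK_opL {i : ι} {l : List ι} (hil : i ∉ l) (L : A i → A i → R) (K : ∀ i, A i → A i → R)
    (f : (∀ i, A i) → M) : opK i L (opL K l f) = opL K l (opK i L f) := by
  induction l generalizing f with
  | nil => rfl
  | cons j l ih =>
    have hij : i ≠ j := fun h => hil (h ▸ List.mem_cons_self)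
    rw [opL_cons, opL_cons, opK_comm hij, ih (fun h => hil (List.mem_cons_of_mem _ h))]

lemma map1_opL {i : ι} {l : List ι} (hil : i ∉ l) {W : Type*} {σ : W → A i → A i}
    {w : (∀ i, A i) → W} (hw : ∀ j ∈ l, Indep j w) (K : ∀ i, A i → A i → R)
    (f : (∀ i, A i) → M) : map1 i σ w (opL K l f) = opL K l (map1 i σ w f) := by
  induction l generalizing f with
  | nil => rfl
  | cons j l ih =>
    have hij : i ≠ j := fun h => hil (h ▸ List.mem_cons_self)
    rw [opL_cons, opL_cons, map1_opK hij (hw j List.mem_cons_self),
      ih (fun h => hil (List.mem_cons_of_mem _ h)) (fun k hk => hw k (List.mem_cons_of_mem _ hk))]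

/-- simultaneous index map in the coordinates of `l` -/
def mapL (l : List ι) {W : ι → Type*} (σ : ∀ i, W i → A i → A i) (w : ∀ i, (∀ i, A i) → W i)
    (f : (∀ i, A i) → M) : (∀ i, A i) → M :=
  fun x => f (fun i => if i ∈ l then σ i (w i x) (x i) else x i)

/-- the phase of a simultaneous index map -/
def phaseL (l : List ι) {W : ι → Type*} (φ : ∀ i, W i → A i → R) (w : ∀ i, (∀ i, A i) → W i) :
    (∀ i, A i) → R :=
  fun x => (l.map fun i => φ i (w i x) (x i)).prod

lemma phaseL_indep {j : ι} {l : List ι} (hj : j ∉ l) {W : ι → Type*} (φ : ∀ i, W i → A i → R)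
    {w : ∀ i, (∀ i, A i) → W i} (hw : ∀ i ∈ l, Indep j (w i)) : Indep j (phaseL l φ w) := by
  intro x a
  unfold phaseL
  congr 1
  apply List.map_congr_left
  intro i hi
  have hij : i ≠ j := fun h => hj (h ▸ hi)
  rw [hw i hi x a, Function.update_of_ne hij]

/-- the scale of a simultaneous index map -/
def scaleL (l : List ι) (r : ∀ i, A i → R) : (∀ i, A i) → R :=
  fun x => (l.map fun i => r i (x i)).prod

/-- LOCKSTEP INDEX MAP: kernels, one phase, kernels = simultaneous index map -/
theorem mapL_eq {l : List ι} (hl : l.Nodup) {W : ι → Type*} {σ : ∀ i, W i → A i → A i}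
    {w : ∀ i, (∀ i, A i) → W i} (hw : ∀ i ∈ l, ∀ j ∈ l, Indep j (w i))
    {K K' : ∀ i, A i → A i → R} {φ : ∀ i, W i → A i → R} {r : ∀ i, A i → R}
    (hK : ∀ i ∈ l, ∀ v a b, ∑ c, K' i a c * (φ i v c * K i c b) =
      if b = σ i v a then r i a else 0)
    (f : (∀ i, A i) → M) :
    opL K' l (diag (phaseL l φ w) (opL K l f)) = diag (scaleL l r) (mapL l σ w f) := by
  induction l generalizing f with
  | nil =>
    funext x
    simp [opL, diag, phaseL, mapL, scaleL]
  | cons i l ih =>
    have hil : i ∉ l := (List.nodup_cons.1 hl).1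
    have hl' : l.Nodup := (List.nodup_cons.1 hl).2
    have hw' : ∀ i ∈ l, ∀ j ∈ l, Indep j (w i) := fun a ha b hb =>
      hw a (List.mem_cons_of_mem _ ha) b (List.mem_cons_of_mem _ hb)
    have hwi : ∀ j ∈ l, Indep j (w i) := fun j hj =>
      hw i List.mem_cons_self j (List.mem_cons_of_mem _ hj)
    have h1 : diag (phaseL (i :: l) φ w) (opL K (i :: l) f) =
        diag (phaseL l φ w) (diag (fun x => φ i (w i x) (x i)) (opK i (K i) (opL K l f))) := by
      rw [diag_diag, opL_cons]
      congr 1
      funext x
      simp only [phaseL, List.map_cons, List.prod_cons]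
      exact mul_comm _ _
    rw [opL_cons, opK_opL hil, h1, opK_diag i _ (phaseL_indep hil φ fun j hj =>
      hw j (List.mem_cons_of_mem _ hj) i List.mem_cons_self),
      map1_eq i (hw i List.mem_cons_self i List.mem_cons_self) (hK i List.mem_cons_self),
      diag_comm, opL_diag K' (c := fun x => r i (x i)) (fun j hj => ?_), map1_opL hil hwi,
      ih hl' hw' (fun a ha => hK a (List.mem_cons_of_mem _ ha)), diag_diag]
    swap
    · intro x a
      have hij : i ≠ j := fun h => hil (h ▸ hj)
      simp only [Function.update_of_ne hij]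
    funext x
    simp only [diag, scaleL, List.map_cons, List.prod_cons]
    congr 1
    simp only [mapL, map1]
    congr 1
    have hx : w i (fun i' => if i' ∈ l then σ i' (w i' x) (x i') else x i') = w i x :=
      indep_congr l hwi fun j hj => by simp [hj]
    funext k
    by_cases hk : k = i
    · subst hk
      rw [Function.update_self, hx]
      simp [hil]
    · rw [Function.update_of_ne hk]
      simp [List.mem_cons, hk]

end Vale.Agent.P338.R3.H955
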