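import Vale.Agent.P338.R3.H955.Inv
import Vale.Agent.P338.R3.H282.Pad
import Vale.Agent.P338.R3.H352.Zt

/-!
P338-D, module CRT (7): the CRT stages as products of lockstep operators and phases, on arrays
indexed by tuples (register bit, residue).
-/

namespace Vale.Agent.P338.R3.H955

open Finset
open Vale.Agent.P338.R3.H282 (lock lock_cons lift gdiag gdiag_apply)
open Vale.Agent.P338.R3.H352 (zt)

set_option linter.unusedSectionVars false

/-! ### the characters -/

/-- the standard character of `ZMod n` -/
noncomputable def psi (n : ℕ) [NeZero n] : AddChar (ZMod n) ℂ := ZMod.stdAddChar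

lemma psi_int (n : ℕ) [NeZero n] (k : ℤ) : psi n (k : ZMod n) = zt n k := by
  unfold psi zt
  rw [ZMod.stdAddChar_coe]
  congr 1
  ring

lemma orth_psi (n : ℕ) [NeZero n] : Orth (psi n) := by
  intro b hb
  have := AddChar.sum_mulShift b (ZMod.isPrimitive_stdAddChar n)
  rw [if_neg hb] at this
  simpa [psi] using this

/-! ### lists of steps -/

section lists

variable {q : ℕ → ℕ} [∀ k, NeZero (q k)] {D : ℕ}

/-- steps: a list of digits and their shifts -/
abbrev ShL (q : ℕ → ℕ) (D : ℕ) : Type :=
  List (List (Fin D) × (∀ i : Fin D, Tup q D → ZMod (q i)))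

/-- the index map of a list of steps -/
def undoS (l : ShL q D) (x : Tup q D) : Tup q D := l.foldr (fun st x => undo st.1 st.2 x) x

/-- the index map of a list of inverse steps -/
def redoS (l : ShL q D) (x : Tup q D) : Tup q D := l.foldr (fun st x => redo st.1 st.2 x) x

/-- the steps of stage A, positions `1, ..., n` -/
def stepsA (q : ℕ → ℕ) [∀ k, NeZero (q k)] (D : ℕ) (iv : ℕ → ℕ → ℕ) (s n : ℕ) : ShL q D :=
  (List.range' 1 n).map fun p => (posL s D p, wA iv s)

/-- the steps of stage B, groups `1, ..., n` -/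
def stepsB (q : ℕ → ℕ) [∀ k, NeZero (q k)] (D : ℕ) (iv : ℕ → ℕ → ℕ) (s n : ℕ) : ShL q D :=
  (List.range' 1 n).map fun g => (grpL s D g, wB iv s)

/-- all steps: the groups `1, ..., t`, then the positions `1, ..., s - 1` -/
def stepsD (q : ℕ → ℕ) [∀ k, NeZero (q k)] (D : ℕ) (iv : ℕ → ℕ → ℕ) (s t : ℕ) : ShL q D :=
  stepsB q D iv s t ++ stepsA q D iv s (s - 1)

lemma undoS_append (l l' : ShL q D) (x : Tup q D) :
    undoS (l ++ l') x = undoS l (undoS l' x) := by
  unfold undoS
  rw [List.foldr_append]

lemma redoS_append (l l' : ShL q D) (x : Tup q D) :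
    redoS (l ++ l') x = redoS l (redoS l' x) := by
  unfold redoS
  rw [List.foldr_append]

lemma undoS_stepsA (iv : ℕ → ℕ → ℕ) (s n : ℕ) (x : Tup q D) :
    undoS (stepsA q D iv s n).reverse x = undoA iv s n x := by
  induction n with
  | zero => rfl
  | succ n ih =>
    rw [undoA, ← ih]
    unfold stepsA
    rw [List.range'_concat, List.map_append, List.reverse_append, undoS_append, one_mul,
      add_comm 1 n]
    rfl

lemma undoS_stepsB (iv : ℕ → ℕ → ℕ) (s n : ℕ) (x : Tup q D) :
    undoS (stepsB q D iv s n).reverse x = undoB iv s n x := by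
  induction n with
  | zero => rfl
  | succ n ih =>
    rw [undoB, ← ih]
    unfold stepsB
    rw [List.range'_concat, List.map_append, List.reverse_append, undoS_append, one_mul,
      add_comm 1 n]
    rfl

/-- INDEX THEOREM, residue coordinates to digits -/
theorem undoS_theta {iv : ℕ → ℕ → ℕ} {s t : ℕ} (hs : 0 < s) (hD : D ≤ s * (t + 1))
    (hiv : ∀ i k, i < D → k < i → (q k : ZMod (q i)) * (iv k i : ZMod (q i)) = 1)
    {j : ℕ} (hj : j < up q 0 D) :
    undoS (stepsD q D iv s t).reverse (thetaT q iv D j) = digT q D j := by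
  unfold stepsD
  rw [List.reverse_append, undoS_append, undoS_stepsA, undoS_stepsB]
  exact undo_theta hs hD hiv hj

/-- shifts of a step list are free -/
def FreeS (l : ShL q D) : Prop := ∀ st ∈ l, st.1.Nodup ∧ Free st.1 st.2

lemma FreeS.reverse {l : ShL q D} (h : FreeS l) : FreeS l.reverse := fun st hst =>
  h st (List.mem_reverse.1 hst)

lemma FreeS.append {l l' : ShL q D} (h : FreeS l) (h' : FreeS l') : FreeS (l ++ l') :=
  fun st hst => (List.mem_append.1 hst).elim (h st) (h' st)

lemma freeS_stepsA (iv : ℕ → ℕ → ℕ) (s n : ℕ) : FreeS (stepsA q D iv s n) := by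
  intro st hst
  obtain ⟨p, -, rfl⟩ := List.mem_map.1 hst
  exact ⟨nodup_posL _ _, free_wA iv p⟩

lemma freeS_stepsB (iv : ℕ → ℕ → ℕ) {s : ℕ} (hs : 0 < s) (n : ℕ) :
    FreeS (stepsB q D iv s n) := by
  intro st hst
  obtain ⟨p, -, rfl⟩ := List.mem_map.1 hst
  exact ⟨nodup_grpL _ _, free_wB iv hs p⟩

lemma freeS_stepsD (iv : ℕ → ℕ → ℕ) {s : ℕ} (hs : 0 < s) (t : ℕ) :
    FreeS (stepsD q D iv s t) := (freeS_stepsB iv hs t).append (freeS_stepsA iv s (s - 1))

lemma undo_redo {l : List (Fin D)} {w : ∀ i : Fin D, Tup q D → ZMod (q i)} (hw : Free l w)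
    (x : Tup q D) : undo l w (redo l w x) = x := by
  funext i
  unfold undo
  split_ifs with h
  · have h1 : w i (redo l w x) = w i x := hw i h _ _ fun j hj => by simp [redo, hj]
    rw [h1]
    simp [redo, h]
  · simp [redo, h]

/-- the inverse steps in the opposite order undo the steps -/
theorem redoS_undoS {l : ShL q D} (h : FreeS l) (x : Tup q D) :
    redoS l (undoS l.reverse x) = x := by
  induction l generalizing x with
  | nil => rfl
  | cons st l ih =>
    rw [List.reverse_cons, undoS_append]
    have h2 := ih (fun st' hst' => h st' (List.mem_cons_of_mem _ hst')) (undoS [st] x)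
    have h3 : redoS (st :: l) (undoS l.reverse (undoS [st] x)) =
        redo st.1 st.2 (redoS l (undoS l.reverse (undoS [st] x))) := rfl
    rw [h3, h2]
    exact redo_undo (h st List.mem_cons_self).2 x

theorem undoS_redoS {l : ShL q D} (h : FreeS l) (x : Tup q D) :
    undoS l.reverse (redoS l x) = x := by
  induction l generalizing x with
  | nil => rfl
  | cons st l ih =>
    rw [List.reverse_cons, undoS_append]
    have h3 : redoS (st :: l) x = redo st.1 st.2 (redoS l x) := rfl
    have h4 : undoS [st] (redo st.1 st.2 (redoS l x)) = redoS l x :=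
      undo_redo (h st List.mem_cons_self).2 _
    rw [h3, h4]
    exact ih (fun st' hst' => h st' (List.mem_cons_of_mem _ hst')) x

/-- INDEX THEOREM, digits to residue coordinates -/
theorem redoS_digits {iv : ℕ → ℕ → ℕ} {s t : ℕ} (hs : 0 < s) (hD : D ≤ s * (t + 1))
    (hiv : ∀ i k, i < D → k < i → (q k : ZMod (q i)) * (iv k i : ZMod (q i)) = 1)
    {j : ℕ} (hj : j < up q 0 D) :
    redoS (stepsD q D iv s t) (digT q D j) = thetaT q iv D j := by
  rw [← undoS_theta hs hD hiv hj, redoS_undoS (freeS_stepsD iv hs t)]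

end lists

/-! ### the stages -/

section stages

variable {q : ℕ → ℕ} [∀ k, NeZero (q k)] {D : ℕ}
variable {M : Type*} [AddCommGroup M] [Module ℂ M]

/-- tuples of (register bit, digit) -/
abbrev TA (q : ℕ → ℕ) (D : ℕ) : Type := ∀ i : Fin D, Bool × ZMod (q i)

/-- tuple from registers and digits -/
def mkT (ρ : Fin D → Bool) (z : Tup q D) : TA q D := fun i => (ρ i, z i)

/-- change of the digits, registers kept -/
def onT (T : Tup q D → Tup q D) (x : TA q D) : TA q D := fun i => ((x i).1, T (fun j => (x j).2) i)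

lemma onT_mkT (T : Tup q D → Tup q D) (ρ : Fin D → Bool) (z : Tup q D) :
    onT T (mkT ρ z) = mkT ρ (T z) := rfl

/-- the matrix `(X, Y) ↦ (-q⁻¹ F̄ Y, F X)` -/
noncomputable def Wk (q : ℕ → ℕ) [∀ k, NeZero (q k)] {D : ℕ} (i : Fin D) :
    Matrix (Bool × ZMod (q i)) (Bool × ZMod (q i)) ℂ :=
  kU (psi (q i)) 1 (1 / (q i : ℂ))

lemma lock_eq_opL {ι : Type*} [DecidableEq ι] {A : ι → Type*} [∀ i, Fintype (A i)]
    [∀ i, DecidableEq (A i)] {R : Type*} [CommRing R] [Module R M] (J : List ι)
    (K : ∀ i, Matrix (A i) (A i) R) (f : (∀ i, A i) → M) :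
    lock J K f = opL (fun i a b => K i a b) J f := by
  induction J with
  | nil => rfl
  | cons j J ih =>
    rw [lock_cons, Module.End.mul_apply, ih]
    rfl

/-- the phase of one stage -/
noncomputable def phS (neg : Bool) (J : List (Fin D)) (w : ∀ i : Fin D, Tup q D → ZMod (q i))
    (x : TA q D) : ℂ :=
  (J.map fun i : Fin D => -phU (psi (q i)) (if neg then -(w i fun j => (x j).2)
    else w i fun j => (x j).2) (x i)).prod

/-- one stage: `W_J`, phase, `W_J` -/
noncomputable def stage (neg : Bool) (J : List (Fin D))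
    (w : ∀ i : Fin D, Tup q D → ZMod (q i)) : Module.End ℂ (TA q D → M) :=
  lock J (Wk q) * gdiag (phS neg J w) * lock J (Wk q)

/-- the index map of one stage -/
def idxT (neg : Bool) (J : List (Fin D)) (w : ∀ i : Fin D, Tup q D → ZMod (q i))
    (x : Tup q D) : Tup q D := if neg then redo J w x else undo J w x

lemma undoX_onT (J : List (Fin D)) (w : ∀ i : Fin D, Tup q D → ZMod (q i)) (x : TA q D) :
    undoX prU sgU J w x = onT (undo J w) x := by
  funext i
  simp only [undoX, undo, onT]
  by_cases h : i ∈ J
  · rw [if_pos h, if_pos h]; rfl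
  · rw [if_neg h, if_neg h]

lemma undoX_onT' (J : List (Fin D)) (w : ∀ i : Fin D, Tup q D → ZMod (q i)) (x : TA q D) :
    undoX prU sgU' J w x = onT (redo J w) x := by
  funext i
  simp only [undoX, redo, onT]
  by_cases h : i ∈ J
  · rw [if_pos h, if_pos h]; rfl
  · rw [if_neg h, if_neg h]

/-- one stage re-indexes the array -/
theorem stage_eq (neg : Bool) {J : List (Fin D)} (hJ : J.Nodup)
    {w : ∀ i : Fin D, Tup q D → ZMod (q i)} (hw : Free J w) (f : TA q D → M) (x : TA q D) :
    stage neg J w f x = f (onT (idxT neg J w) x) := by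
  have hq0 : ∀ i : Fin D, (q i : ℂ) ≠ 0 := fun i => by exact_mod_cast NeZero.ne (q i)
  have hsum : ∀ (i : Fin D) (v : ZMod (q i)) (a b : Bool × ZMod (q i)),
      ∑ c, (Wk q i) a c * (-phU (psi (q i)) v c * (Wk q i) c b) =
        if b = (a.1, a.2 - v) then 1 else 0 := by
    intro i v a b
    have h1 : ∑ c, (Wk q i) a c * (-phU (psi (q i)) v c * (Wk q i) c b) =
        -∑ c, (Wk q i) a c * (phU (psi (q i)) v c * (Wk q i) c b) := by
      rw [← Finset.sum_neg_distrib]
      exact Finset.sum_congr rfl fun c _ => by ring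
    have h2 := U_kernel (orth_psi (q i)) (g := 1) (g' := 1 / (q i : ℂ))
      (by have := hq0 i; field_simp) v a b
    rw [h1]
    unfold Wk
    rw [h2]
    split_ifs <;> simp
  cases neg with
  | false =>
    have h1 := stepW_eq (pr := prU) (σ := sgU) (K := fun i => Wk q i) (K' := fun i => Wk q i)
      (φ := fun i v c => -phU (psi (q i)) v c) (r := fun _ => 1) (fun i v a b => hsum i v a b)
      hJ hw f
    have h2 : stage false J w f = stepW prU (fun i => Wk q i) (fun i => Wk q i)
        (fun i v c => -phU (psi (q i)) v c) J w f := by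
      unfold stage
      rw [Module.End.mul_apply, Module.End.mul_apply, lock_eq_opL, lock_eq_opL]
      rfl
    rw [h2, h1, Pi.smul_apply, undoX_onT, List.map_const', List.prod_replicate, one_pow, one_smul]
    rfl
  | true =>
    have h1 := stepW_eq (pr := prU) (σ := sgU') (K := fun i => Wk q i) (K' := fun i => Wk q i)
      (φ := fun i v c => -phU (psi (q i)) (-v) c) (r := fun _ => 1) (fun i v a b => by
        have := hsum i (-v) a b
        rw [sub_neg_eq_add] at this
        exact this) hJ hw f
    have h2 : stage true J w f = stepW prU (fun i => Wk q i) (fun i => Wk q i)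
        (fun i v c => -phU (psi (q i)) (-v) c) J w f := by
      unfold stage
      rw [Module.End.mul_apply, Module.End.mul_apply, lock_eq_opL, lock_eq_opL]
      rfl
    rw [h2, h1, Pi.smul_apply, undoX_onT', List.map_const', List.prod_replicate, one_pow,
      one_smul]
    rfl

/-- a list of stages, first stage first -/
noncomputable def runS (neg : Bool) (l : ShL q D) (f : TA q D → M) : TA q D → M :=
  l.foldl (fun f st => stage neg st.1 st.2 f) f

lemma onT_onT (T T' : Tup q D → Tup q D) (x : TA q D) : onT T (onT T' x) = onT (T ∘ T') x := rfl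

theorem runS_false {l : ShL q D} (h : FreeS l) (f : TA q D → M) :
    runS false l f = fun x => f (onT (undoS l) x) := by
  induction l generalizing f with
  | nil => rfl
  | cons st l ih =>
    have h2 := ih (fun st' hst' => h st' (List.mem_cons_of_mem _ hst')) (stage false st.1 st.2 f)
    have h3 : runS false (st :: l) f = runS false l (stage false st.1 st.2 f) := rfl
    rw [h3, h2]
    funext x
    rw [stage_eq false (h st List.mem_cons_self).1 (h st List.mem_cons_self).2]
    rfl

theorem runS_true {l : ShL q D} (h : FreeS l) (f : TA q D → M) :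
    runS true l f = fun x => f (onT (redoS l) x) := by
  induction l generalizing f with
  | nil => rfl
  | cons st l ih =>
    have h2 := ih (fun st' hst' => h st' (List.mem_cons_of_mem _ hst')) (stage true st.1 st.2 f)
    have h3 : runS true (st :: l) f = runS true l (stage true st.1 st.2 f) := rfl
    rw [h3, h2]
    funext x
    rw [stage_eq true (h st List.mem_cons_self).1 (h st List.mem_cons_self).2]
    rfl

end stages

end Vale.Agent.P338.R3.H955
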